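import Vale.Agent.P057.Combine

namespace Vale.Agent.P057

open Real

theorem aux_a (n : ℕ) (X : ℝ) (hX4 : 4 ≤ X) (hX8 : 8 * (n : ℝ) ≤ X) :
    (5 / 9 : ℝ) ^ n / 2 ≤ (5 / 9 - 2 / X) ^ n := by
  have hXpos : 0 < X := by linarith
  have e : (5 / 9 - 2 / X) = (5 / 9) * (1 + (-(18 / (5 * X)))) := by
    field_simp
    ring
  rw [e, mul_pow]
  have hsmall : 18 / (5 * X) * n ≤ 1 / 2 := by
    rw [div_mul_eq_mul_div, div_le_iff₀ (by positivity)]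
    linarith
  have h18 : 18 / (5 * X) ≤ 18 / (5 * 4) := by
    apply div_le_div_of_nonneg_left (by norm_num) (by norm_num)
    linarith
  have hb := one_add_mul_le_pow (a := -(18 / (5 * X))) (by linarith) n
  have hb' : (1 / 2 : ℝ) ≤ (1 + (-(18 / (5 * X)))) ^ n := by
    refine le_trans ?_ hb
    nlinarith
  have hp : (0 : ℝ) ≤ (5 / 9 : ℝ) ^ n := by positivity
  nlinarith

theorem aux_b (n : ℕ) : (5 / 9 : ℝ) ^ n = Real.exp (-(n * Real.log (9 / 5))) := by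
  rw [← mul_neg, Real.exp_nat_mul, Real.exp_neg, Real.exp_log (by norm_num)]
  norm_num

theorem aux_c (n X Y : ℝ) (hn : 1 ≤ n) (hX1 : 1 ≤ X) (hXY : X ≤ 2 * Y) :
    2 * ((n + 1) * (n ^ 7 * X ^ 2 + 1)) ≤ 32 * n ^ 8 * Y ^ 2 := by
  have h1 : (1 : ℝ) ≤ n ^ 7 * X ^ 2 := by
    have h2 : (1 : ℝ) ≤ n ^ 7 := one_le_pow₀ hn
    have h3 : (1 : ℝ) ≤ X ^ 2 := one_le_pow₀ hX1
    nlinarith
  have h4 : X ^ 2 ≤ 4 * Y ^ 2 := by nlinarith
  have h5 : (0 : ℝ) ≤ n ^ 7 := by positivity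
  calc 2 * ((n + 1) * (n ^ 7 * X ^ 2 + 1))
      ≤ 2 * ((2 * n) * (2 * (n ^ 7 * X ^ 2))) := by
        apply mul_le_mul_of_nonneg_left _ (by norm_num)
        apply mul_le_mul (by linarith) (by linarith) (by positivity) (by positivity)
    _ = 8 * n ^ 8 * X ^ 2 := by ring
    _ ≤ 8 * n ^ 8 * (4 * Y ^ 2) := by
        apply mul_le_mul_of_nonneg_left h4 (by positivity)
    _ = 32 * n ^ 8 * Y ^ 2 := by ring

theorem aux_e (n : ℝ) (hn : 0 < n) : 64 * n ^ 8 = Real.exp (Real.log 64 + 8 * Real.log n) := by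
  rw [Real.exp_add, Real.exp_log (by norm_num), mul_comm (8 : ℝ), Real.exp_mul, Real.exp_log hn]
  norm_num

theorem aux_exp (n ε lam c0 κ x : ℝ) (hlampos : 0 < lam)
    (hc0 : c0 ^ 2 = 2 * lam) (hc0pos : 0 < c0) (hκ : κ = c0 / lam) (hxpos : 0 < x)
    (hnpos : 0 < n) (hn1 : κ * x ≤ n) (hn2 : n < κ * x + 1) (hn3 : n ≤ (κ + 1) * x)
    (H3 : lam + Real.log 64 + 8 * Real.log ((κ + 1) * x) ≤ ε * x) :
    -(2 * c0 + ε) * x + (Real.log 64 + 8 * Real.log n) + 2 * (x ^ 2 / n) ≤ -(n * lam) := by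
  have h1 : n * lam ≤ c0 * x + lam := by
    have : κ * lam = c0 := by rw [hκ]; field_simp
    nlinarith
  have h2 : 2 * (x ^ 2 / n) ≤ c0 * x := by
    rw [← mul_div_assoc, div_le_iff₀ hnpos]
    have h3 : c0 * x * (κ * x) ≤ c0 * x * n := by
      apply mul_le_mul_of_nonneg_left hn1 (by positivity)
    have h4 : c0 * κ = 2 := by
      rw [hκ, ← mul_div_assoc, ← pow_two, hc0]; field_simp
    nlinarith
  have h3 : Real.log n ≤ Real.log ((κ + 1) * x) := Real.log_le_log hnpos hn3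
  linarith

theorem aux_ED (n : ℕ) (X Y ε lam c0 x : ℝ) (hlam : lam = Real.log (9 / 5)) (hn1 : (1 : ℝ) ≤ n)
    (hX4 : 4 ≤ X) (hX8 : 8 * (n : ℝ) ≤ X) (hXY : X ≤ 2 * Y) (hY : Y = Real.exp (x ^ 2 / n))
    (hexp : -(2 * c0 + ε) * x + (Real.log 64 + 8 * Real.log n) + 2 * (x ^ 2 / n) ≤ -(n * lam)) :
    Real.exp (-(2 * c0 + ε) * x) * (2 * (((n : ℝ) + 1) * ((n : ℝ) ^ 7 * X ^ 2 + 1)))
      ≤ (5 / 9 - 2 / X) ^ n := by
  refine le_trans ?_ (aux_a n X hX4 hX8)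
  rw [aux_b, ← hlam]
  have hd : Y ^ 2 = Real.exp (2 * (x ^ 2 / n)) := by
    rw [hY, ← Real.exp_nat_mul]; norm_num
  calc Real.exp (-(2 * c0 + ε) * x) * (2 * (((n : ℝ) + 1) * ((n : ℝ) ^ 7 * X ^ 2 + 1)))
      ≤ Real.exp (-(2 * c0 + ε) * x) * (32 * (n : ℝ) ^ 8 * Y ^ 2) := by
        apply mul_le_mul_of_nonneg_left (aux_c n X Y hn1 (by linarith) hXY) (Real.exp_pos _).le
    _ = (Real.exp (-(2 * c0 + ε) * x) * (64 * (n : ℝ) ^ 8) * Y ^ 2) / 2 := by ring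
    _ = Real.exp (-(2 * c0 + ε) * x + (Real.log 64 + 8 * Real.log n) + 2 * (x ^ 2 / n)) / 2 := by
        rw [aux_e n (by linarith), hd, ← Real.exp_add, ← Real.exp_add]
    _ ≤ Real.exp (-(n * lam)) / 2 := by
        apply div_le_div_of_nonneg_right (Real.exp_le_exp.mpr hexp) (by norm_num)

/-- core estimate for one `N`, in terms of `x = sqrt (log N)` -/
theorem core_bound (N : ℕ) (ε lam c0 κ x : ℝ) (hlam : lam = Real.log (9 / 5)) (hlampos : 0 < lam)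
    (hc0 : c0 ^ 2 = 2 * lam) (hc0pos : 0 < c0) (hκ : κ = c0 / lam)
    (hx : x ^ 2 = Real.log N) (H0 : 1 ≤ x) (H1 : 6 ≤ κ * x)
    (H2 : 8 * ((κ + 1) * x) ≤ Real.exp (x / (κ + 1)))
    (H3 : lam + Real.log 64 + 8 * Real.log ((κ + 1) * x) ≤ ε * x) :
    (N : ℝ) * Real.exp (-(2 * c0 + ε) * x) ≤ rk 4 N := by
  have hκpos : 0 < κ := by rw [hκ]; positivity
  have hxpos : 0 < x := by linarith
  obtain ⟨n, hn⟩ : ∃ n : ℕ, n = ⌈κ * x⌉₊ := ⟨_, rfl⟩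
  have hn1 : κ * x ≤ n := by rw [hn]; exact Nat.le_ceil _
  have hn2 : (n : ℝ) < κ * x + 1 := by rw [hn]; exact Nat.ceil_lt_add_one (by positivity)
  have hn3 : (n : ℝ) ≤ (κ + 1) * x := by nlinarith
  have hn6 : 6 ≤ n := by
    have : (6 : ℝ) ≤ n := H1.trans hn1
    exact_mod_cast this
  have hnpos : (0 : ℝ) < n := by linarith
  have hn1' : (1 : ℝ) ≤ n := by linarith
  have hNpos : 0 < N := by
    rcases Nat.eq_zero_or_pos N with h | h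
    · rw [h] at hx
      simp at hx
      nlinarith
    · exact h
  have hNpos' : (0 : ℝ) < N := by exact_mod_cast hNpos
  obtain ⟨Y, hY⟩ : ∃ Y : ℝ, Y = Real.exp (x ^ 2 / n) := ⟨_, rfl⟩
  have hYpos : 0 < Y := by rw [hY]; exact Real.exp_pos _
  obtain ⟨X, hX⟩ : ∃ X : ℕ, X = ⌈Y⌉₊ := ⟨_, rfl⟩
  have hX1 : Y ≤ X := by rw [hX]; exact Nat.le_ceil _
  have hX2 : (X : ℝ) < Y + 1 := by rw [hX]; exact Nat.ceil_lt_add_one hYpos.le
  have hY1 : 1 ≤ Y := by rw [hY]; exact Real.one_le_exp (by positivity)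
  have hX3 : (X : ℝ) ≤ 2 * Y := by linarith
  have hYn : Y ^ n = N := by
    rw [hY, ← Real.exp_nat_mul, mul_div_cancel₀ _ hnpos.ne', hx, Real.exp_log hNpos']
  have hXn : N ≤ X ^ n := by
    have : (N : ℝ) ≤ (X : ℝ) ^ n := by
      rw [← hYn]
      exact pow_le_pow_left₀ hYpos.le hX1 n
    exact_mod_cast this
  have hY8 : 8 * (n : ℝ) ≤ Y := by
    have h1 : x / (κ + 1) ≤ x ^ 2 / n := by
      rw [div_le_div_iff₀ (by positivity) hnpos]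
      nlinarith
    calc 8 * (n : ℝ) ≤ 8 * ((κ + 1) * x) := by linarith
      _ ≤ Real.exp (x / (κ + 1)) := H2
      _ ≤ Y := by rw [hY]; exact Real.exp_le_exp.mpr h1
  have hX8 : 8 * (n : ℝ) ≤ X := hY8.trans hX1
  have hX4' : (4 : ℝ) ≤ X := by linarith
  have hX4 : 4 ≤ X := by exact_mod_cast hX4'
  have hmain := rk4_ge n X N hn6 hX4 hNpos hXn
  have hexp := aux_exp n ε lam c0 κ x hlampos hc0 hc0pos hκ hxpos hnpos hn1 hn2 hn3 H3
  have hED := aux_ED n X Y ε lam c0 x hlam hn1' hX4' hX8 hX3 hY hexp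
  obtain ⟨D, hD⟩ : ∃ D : ℝ, D = 2 * (((n : ℝ) + 1) * ((n : ℝ) ^ 7 * (X : ℝ) ^ 2 + 1)) := ⟨_, rfl⟩
  rw [← hD] at hmain hED
  have hDpos : 0 < D := by rw [hD]; positivity
  have hfin : D * ((N : ℝ) * Real.exp (-(2 * c0 + ε) * x)) ≤ D * rk 4 N := by
    calc D * ((N : ℝ) * Real.exp (-(2 * c0 + ε) * x))
        = (N : ℝ) * (Real.exp (-(2 * c0 + ε) * x) * D) := by ring
      _ ≤ (N : ℝ) * (5 / 9 - 2 / (X : ℝ)) ^ n := by
          apply mul_le_mul_of_nonneg_left hED hNpos'.le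
      _ ≤ D * rk 4 N := hmain
  exact le_of_mul_le_mul_left hfin hDpos

end Vale.Agent.P057
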