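import Vale.Agent.P057.Combine5

namespace Vale.Agent.P057

open Real

theorem bern (n : ℕ) (hn : 1 ≤ n) (a b X : ℝ) (ha : 0 < a) (hb : 0 ≤ b) (hX : 0 < X)
    (h : 2 * b * n ≤ a * X) : a ^ n / 2 ≤ (a - b / X) ^ n := by
  have hn' : (1 : ℝ) ≤ n := by exact_mod_cast hn
  have e : (a - b / X) = a * (1 + (-(b / (a * X)))) := by
    field_simp
    ring
  rw [e, mul_pow]
  have hsmall : b / (a * X) * n ≤ 1 / 2 := by
    rw [div_mul_eq_mul_div, div_le_iff₀ (by positivity)]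
    linarith
  have hnn : 0 ≤ b / (a * X) := by positivity
  have h1 : b / (a * X) ≤ 1 / 2 := by nlinarith
  have hb' := one_add_mul_le_pow (a := -(b / (a * X))) (by linarith) n
  have hb'' : (1 / 2 : ℝ) ≤ (1 + (-(b / (a * X)))) ^ n := by
    refine le_trans ?_ hb'
    nlinarith
  have hp : (0 : ℝ) ≤ a ^ n := by positivity
  nlinarith

theorem pow_eq_exp_neg (n : ℕ) (r : ℝ) (hr : 0 < r) : (1 / r) ^ n = Real.exp (-(n * Real.log r)) := by
  rw [← mul_neg, Real.exp_nat_mul, Real.exp_neg, Real.exp_log hr]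
  norm_num

/-- bound for the denominator -/
theorem aux5_D (n m Z V : ℝ) (hn : 1 ≤ n) (hm : 1 ≤ m) (hZ1 : 1 ≤ Z) (hZV : Z ≤ 2 * V) :
    12 * (n + 1) * (m ^ 7 * Z ^ 2 + 1) ≤ 192 * n * m ^ 7 * V ^ 2 := by
  have h1 : (1 : ℝ) ≤ m ^ 7 * Z ^ 2 := by
    have h2 : (1 : ℝ) ≤ m ^ 7 := one_le_pow₀ hm
    have h3 : (1 : ℝ) ≤ Z ^ 2 := one_le_pow₀ hZ1
    nlinarith
  have h4 : Z ^ 2 ≤ 4 * V ^ 2 := by nlinarith
  have h5 : (0 : ℝ) ≤ m ^ 7 := by positivity
  calc 12 * (n + 1) * (m ^ 7 * Z ^ 2 + 1)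
      ≤ 12 * (2 * n) * (2 * (m ^ 7 * Z ^ 2)) := by
        apply mul_le_mul (by linarith) (by linarith) (by positivity) (by positivity)
    _ = 48 * n * m ^ 7 * Z ^ 2 := by ring
    _ ≤ 48 * n * m ^ 7 * (4 * V ^ 2) := by
        apply mul_le_mul_of_nonneg_left h4 (by positivity)
    _ = 192 * n * m ^ 7 * V ^ 2 := by ring

theorem aux5_poly (n m : ℝ) (hn : 0 < n) (hm : 0 < m) :
    768 * n * m ^ 7 = Real.exp (Real.log 768 + Real.log n + 7 * Real.log m) := by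
  rw [Real.exp_add, Real.exp_add, Real.exp_log (by norm_num), Real.exp_log hn, mul_comm (7 : ℝ),
    Real.exp_mul, Real.exp_log hm]
  norm_num

/-- the exponent inequality -/
theorem aux5_exp (n m ε l1 l2 c1 a x : ℝ) (hl1 : 0 < l1) (hl2 : 0 < l2)
    (hc1 : c1 ^ 3 = 4 * l1 * l2) (hc1pos : 0 < c1) (hxpos : 0 < x)
    (hn1 : c1 * x / l1 ≤ n) (hn2 : n < c1 * x / l1 + 1) (hn3 : n ≤ a * x) (hn0 : 1 ≤ n)
    (hm1 : c1 * x / l2 ≤ m) (hm2 : m < c1 * x / l2 + 1) (hm3 : m ≤ a * x) (hm0 : 1 ≤ m)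
    (H3 : l1 + l2 + Real.log 12288 + 22 * Real.log (a * x) ≤ ε * x) :
    -(3 * c1 + ε) * x + (Real.log 768 + Real.log n + 7 * Real.log m) +
      (14 * Real.log n + 4 * Real.log 2 + 4 * x ^ 3 / (n * m)) ≤ -(n * l1) + -(m * l2) := by
  have hnpos : 0 < n := by linarith
  have hmpos : 0 < m := by linarith
  have h1 : n * l1 ≤ c1 * x + l1 := by
    have : (c1 * x / l1 + 1) * l1 = c1 * x + l1 := by field_simp
    nlinarith
  have h2 : m * l2 ≤ c1 * x + l2 := by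
    have : (c1 * x / l2 + 1) * l2 = c1 * x + l2 := by field_simp
    nlinarith
  have h3 : 4 * x ^ 3 / (n * m) ≤ c1 * x := by
    rw [div_le_iff₀ (by positivity)]
    have h4 : (c1 * x / l1) * (c1 * x / l2) ≤ n * m := by
      apply mul_le_mul hn1 hm1 (by positivity) hnpos.le
    have h5 : c1 * x * ((c1 * x / l1) * (c1 * x / l2)) = 4 * x ^ 3 := by
      have : c1 * x * ((c1 * x / l1) * (c1 * x / l2)) = c1 ^ 3 * x ^ 3 / (l1 * l2) := by
        field_simp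
      rw [this, hc1]
      field_simp
    have h6 : c1 * x * ((c1 * x / l1) * (c1 * x / l2)) ≤ c1 * x * (n * m) := by
      apply mul_le_mul_of_nonneg_left h4 (by positivity)
    linarith
  have h7 : Real.log n ≤ Real.log (a * x) := Real.log_le_log hnpos hn3
  have h8 : Real.log m ≤ Real.log (a * x) := Real.log_le_log hmpos hm3
  have h9 : Real.log 12288 = Real.log 768 + 4 * Real.log 2 := by
    have : (12288 : ℝ) = 768 * 2 ^ 4 := by norm_num
    rw [this, Real.log_mul (by norm_num) (by norm_num), Real.log_pow]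
    norm_num
  nlinarith

theorem aux5_ED (n m : ℕ) (X Z V ε l1 l2 c1 x : ℝ) (hl1 : l1 = Real.log (12 / 7))
    (hl2 : l2 = Real.log 4) (hn1 : 1 ≤ n) (hm1 : 1 ≤ m)
    (hX8 : 8 * (n : ℝ) ≤ X) (hZ8 : 8 * (m : ℝ) ≤ Z) (hZV : Z ≤ 2 * V)
    (hV2 : V ^ 2 ≤ Real.exp (14 * Real.log n + 4 * Real.log 2 + 4 * x ^ 3 / ((n : ℝ) * m)))
    (hexp : -(3 * c1 + ε) * x + (Real.log 768 + Real.log n + 7 * Real.log m) +
      (14 * Real.log n + 4 * Real.log 2 + 4 * x ^ 3 / ((n : ℝ) * m)) ≤ -(n * l1) + -(m * l2)) :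
    Real.exp (-(3 * c1 + ε) * x) * (12 * ((n : ℝ) + 1) * ((m : ℝ) ^ 7 * Z ^ 2 + 1))
      ≤ (7 / 12 - 2 / X) ^ n * (1 / 4 - 1 / Z) ^ m := by
  have hn1' : (1 : ℝ) ≤ n := by exact_mod_cast hn1
  have hm1' : (1 : ℝ) ≤ m := by exact_mod_cast hm1
  have hA := bern n hn1 (7 / 12) 2 X (by norm_num) (by norm_num) (by linarith) (by linarith)
  have hB := bern m hm1 (1 / 4) 1 Z (by norm_num) (by norm_num) (by linarith) (by linarith)
  have eA : (7 / 12 : ℝ) ^ n = Real.exp (-(n * l1)) := by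
    rw [hl1, ← pow_eq_exp_neg n (12 / 7) (by norm_num)]
    norm_num
  have eB : (1 / 4 : ℝ) ^ m = Real.exp (-(m * l2)) := by
    rw [hl2, ← pow_eq_exp_neg m 4 (by norm_num)]
  rw [eA] at hA
  rw [eB] at hB
  have hprod : Real.exp (-(n * l1) + -(m * l2)) / 4 ≤ (7 / 12 - 2 / X) ^ n * (1 / 4 - 1 / Z) ^ m := by
    rw [Real.exp_add]
    calc Real.exp (-(n * l1)) * Real.exp (-(m * l2)) / 4
        = (Real.exp (-(n * l1)) / 2) * (Real.exp (-(m * l2)) / 2) := by ring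
      _ ≤ (7 / 12 - 2 / X) ^ n * (1 / 4 - 1 / Z) ^ m := by
          apply mul_le_mul hA hB (by positivity)
          exact le_trans (by positivity) hA
  refine le_trans ?_ hprod
  calc Real.exp (-(3 * c1 + ε) * x) * (12 * ((n : ℝ) + 1) * ((m : ℝ) ^ 7 * Z ^ 2 + 1))
      ≤ Real.exp (-(3 * c1 + ε) * x) * (192 * (n : ℝ) * (m : ℝ) ^ 7 * V ^ 2) := by
        apply mul_le_mul_of_nonneg_left (aux5_D n m Z V hn1' hm1' (by linarith) hZV)
          (Real.exp_pos _).le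
    _ = (Real.exp (-(3 * c1 + ε) * x) * (768 * (n : ℝ) * (m : ℝ) ^ 7)) * V ^ 2 / 4 := by ring
    _ ≤ (Real.exp (-(3 * c1 + ε) * x) * (768 * (n : ℝ) * (m : ℝ) ^ 7)) *
          Real.exp (14 * Real.log n + 4 * Real.log 2 + 4 * x ^ 3 / ((n : ℝ) * m)) / 4 := by
        apply div_le_div_of_nonneg_right _ (by norm_num)
        apply mul_le_mul_of_nonneg_left hV2 (by positivity)
    _ = Real.exp (-(3 * c1 + ε) * x + (Real.log 768 + Real.log n + 7 * Real.log m) +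
          (14 * Real.log n + 4 * Real.log 2 + 4 * x ^ 3 / ((n : ℝ) * m))) / 4 := by
        rw [aux5_poly n m (by linarith) (by linarith), ← Real.exp_add, ← Real.exp_add]
    _ ≤ Real.exp (-(n * l1) + -(m * l2)) / 4 := by
        apply div_le_div_of_nonneg_right (Real.exp_le_exp.mpr hexp) (by norm_num)

end Vale.Agent.P057
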