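import Vale.Agent.P057.Core5

namespace Vale.Agent.P057

open Real Filter

theorem ev_exp (A b : ℝ) (hb : 0 < b) : ∀ᶠ x : ℝ in atTop, A * x ≤ Real.exp (x / b) := by
  filter_upwards [eventually_ge_atTop (2 * A * b ^ 2), eventually_ge_atTop 0] with x hx hx0
  have h1 := Real.quadratic_le_exp_of_nonneg (x := x / b) (by positivity)
  have h2 : A * x ≤ (x / b) ^ 2 / 2 := by
    rw [div_pow, le_div_iff₀ (by norm_num), le_div_iff₀ (by positivity)]
    nlinarith [mul_nonneg hx0 (sub_nonneg.mpr hx)]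
  have h3 : 0 ≤ x / b := by positivity
  linarith

theorem ev_log (c k a ε : ℝ) (hk : 0 < k) (ha : 0 < a) (hε : 0 < ε) :
    ∀ᶠ x : ℝ in atTop, c + k * Real.log (a * x) ≤ ε * x := by
  have hlo := Real.isLittleO_log_id_atTop.def (show (0 : ℝ) < ε / (2 * k) by positivity)
  filter_upwards [hlo, eventually_ge_atTop (2 * (c + k * Real.log a) / ε), eventually_gt_atTop 0]
    with x h1 h2 h3
  rw [Real.log_mul ha.ne' h3.ne']
  simp only [id, Real.norm_eq_abs] at h1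
  rw [abs_of_pos h3] at h1
  have h4 : Real.log x ≤ ε / (2 * k) * x := (le_abs_self _).trans h1
  have h5 : k * Real.log x ≤ ε / 2 * x := by
    have : k * (ε / (2 * k) * x) = ε / 2 * x := by field_simp
    rw [← this]
    exact mul_le_mul_of_nonneg_left h4 hk.le
  rw [div_le_iff₀ hε] at h2
  nlinarith

theorem main5_bound (ε : ℝ) (hε : 0 < ε) : ∃ N₀ : ℕ, ∀ N ≥ N₀,
    (N : ℝ) * Real.exp (-(3 * (4 * Real.log (12 / 7) * Real.log 4) ^ (1 / 3 : ℝ) + ε) *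
      (Real.log N) ^ (1 / 3 : ℝ)) ≤ rk 5 N := by
  obtain ⟨l1, hl1⟩ : ∃ l1 : ℝ, l1 = Real.log (12 / 7) := ⟨_, rfl⟩
  obtain ⟨l2, hl2⟩ : ∃ l2 : ℝ, l2 = Real.log 4 := ⟨_, rfl⟩
  have hl1pos : 0 < l1 := by rw [hl1]; exact Real.log_pos (by norm_num)
  have hl2pos : 0 < l2 := by rw [hl2]; exact Real.log_pos (by norm_num)
  have h13 : (1 / 3 : ℝ) = ((3 : ℕ) : ℝ)⁻¹ := by norm_num
  obtain ⟨c1, hc1def⟩ : ∃ c1 : ℝ, c1 = (4 * l1 * l2) ^ (1 / 3 : ℝ) := ⟨_, rfl⟩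
  have hc1pos : 0 < c1 := by rw [hc1def]; positivity
  have hc1 : c1 ^ 3 = 4 * l1 * l2 := by
    rw [hc1def, h13]
    exact Real.rpow_inv_natCast_pow (by positivity) (by norm_num)
  obtain ⟨a, ha⟩ : ∃ a : ℝ, a = c1 / l1 + c1 / l2 + 1 := ⟨_, rfl⟩
  have hapos : 0 < a := by rw [ha]; positivity
  have hev : ∀ᶠ x : ℝ in atTop, 1 ≤ x ∧ 6 ≤ c1 * x / l1 ∧ 6 ≤ c1 * x / l2 ∧
      8 * (a * x) ≤ Real.exp (x / a) ∧ 8 * (a * x) ≤ Real.exp (2 * x / a ^ 2) ∧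
      l1 + l2 + Real.log 12288 + 22 * Real.log (a * x) ≤ ε * x := by
    filter_upwards [eventually_ge_atTop 1, eventually_ge_atTop (6 * l1 / c1),
      eventually_ge_atTop (6 * l2 / c1), ev_exp (8 * a) a hapos,
      ev_exp (8 * a) (a ^ 2 / 2) (by positivity),
      ev_log (l1 + l2 + Real.log 12288) 22 a ε (by norm_num) hapos hε] with x h0 h1 h2 h3 h4 h5
    refine ⟨h0, ?_, ?_, by linarith, ?_, h5⟩
    · rw [div_le_iff₀ hc1pos] at h1
      rw [le_div_iff₀ hl1pos]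
      linarith
    · rw [div_le_iff₀ hc1pos] at h2
      rw [le_div_iff₀ hl2pos]
      linarith
    · have e : 2 * x / a ^ 2 = x / (a ^ 2 / 2) := by field_simp
      rw [e]
      linarith
  have htend : Tendsto (fun N : ℕ => (Real.log N) ^ (1 / 3 : ℝ)) atTop atTop :=
    (tendsto_rpow_atTop (by norm_num : (0 : ℝ) < 1 / 3)).comp
      (Real.tendsto_log_atTop.comp tendsto_natCast_atTop_atTop)
  obtain ⟨N₀, hN₀⟩ := Filter.eventually_atTop.mp (htend.eventually hev)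
  refine ⟨max N₀ 1, fun N hN => ?_⟩
  obtain ⟨h0, h1, h2, h3, h4, h5⟩ := hN₀ N (le_trans (le_max_left _ _) hN)
  have hN1 : 1 ≤ N := le_trans (le_max_right _ _) hN
  have hlogN : 0 ≤ Real.log N := Real.log_nonneg (by exact_mod_cast hN1)
  have hx3 : ((Real.log N) ^ (1 / 3 : ℝ)) ^ 3 = Real.log N := by
    rw [h13]
    exact Real.rpow_inv_natCast_pow hlogN (by norm_num)
  rw [← hl1, ← hl2, ← hc1def]
  exact core5_bound N ε l1 l2 c1 a _ hl1 hl2 hl1pos hl2pos hc1 hc1pos ha hx3 h0 h1 h2 h3 h4 h5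

end Vale.Agent.P057
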