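import Vale.Agent.P057.CombineG
import Vale.Agent.P057.Main5

namespace Vale.Agent.P057

open Real

/-- upper bound for `log R`, `R = d^7 X^2` -/
theorem logR_bound (s : ℕ) (hs : 1 ≤ s) (d X Y x κ μ δ : ℝ) (hκ : 0 < κ)
    (hμs : μ ^ s = 2 / κ) (hδ : 0 < δ) (H0 : 1 ≤ x) (hd1 : κ * x ≤ d) (hd2 : d ≤ 2 * κ * x)
    (hY : Y = Real.exp (x ^ (s + 1) / d)) (hX0 : 0 < X) (hXY : X ≤ 2 * Y)
    (H5 : 2 * Real.log 2 + 7 * Real.log (2 * κ * x) ≤ 2 * δ / κ * x) :
    Real.log (d ^ 7 * X ^ 2) ≤ (μ * (1 + δ) * x) ^ s := by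
  have hxpos : 0 < x := by linarith
  have hdpos : 0 < d := lt_of_lt_of_le (by positivity) hd1
  have hYpos : 0 < Y := by rw [hY]; exact Real.exp_pos _
  have hlogY : Real.log Y = x ^ (s + 1) / d := by rw [hY, Real.log_exp]
  have hlogR : Real.log (d ^ 7 * X ^ 2) = 7 * Real.log d + 2 * Real.log X := by
    rw [Real.log_mul (by positivity) (by positivity), Real.log_pow, Real.log_pow]
    norm_num
  have hlogX : Real.log X ≤ Real.log 2 + x ^ (s + 1) / d := by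
    rw [← hlogY, ← Real.log_mul (by norm_num) hYpos.ne']
    exact Real.log_le_log hX0 hXY
  have hlogd : Real.log d ≤ Real.log (2 * κ * x) := Real.log_le_log hdpos hd2
  have h1 : x ^ (s + 1) / d ≤ x ^ s / κ := by
    rw [div_le_div_iff₀ hdpos hκ, pow_succ]
    have : x ^ s * (κ * x) ≤ x ^ s * d := mul_le_mul_of_nonneg_left hd1 (by positivity)
    nlinarith
  have h2 : x ≤ x ^ s := le_self_pow₀ H0 (by omega)
  have h3 : 1 + δ ≤ (1 + δ) ^ s := le_self_pow₀ (by linarith) (by omega)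
  have h4 : (μ * (1 + δ) * x) ^ s = 2 / κ * ((1 + δ) ^ s * x ^ s) := by
    rw [mul_pow, mul_pow, hμs]; ring
  rw [hlogR, h4]
  have h5 : 2 / κ * ((1 + δ) * x ^ s) ≤ 2 / κ * ((1 + δ) ^ s * x ^ s) := by
    apply mul_le_mul_of_nonneg_left _ (by positivity)
    exact mul_le_mul_of_nonneg_right h3 (by positivity)
  have h6 : 2 * δ / κ * x ≤ 2 * δ / κ * x ^ s := mul_le_mul_of_nonneg_left h2 (by positivity)
  have h7 : 2 / κ * ((1 + δ) * x ^ s) = 2 * (x ^ s / κ) + 2 * δ / κ * x ^ s := by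
    field_simp
  linarith

/-- lower bound for `Y` -/
theorem Y_lower (s : ℕ) (hs : 1 ≤ s) (d x κ : ℝ) (hκ : 0 < κ) (H0 : 1 ≤ x) (hd0 : 0 < d)
    (hd2 : d ≤ 2 * κ * x) : x / (2 * κ) ≤ x ^ (s + 1) / d := by
  have hxpos : 0 < x := by linarith
  rw [div_le_div_iff₀ (by positivity) hd0, pow_succ]
  have h2 : x ≤ x ^ s := le_self_pow₀ H0 (by omega)
  have h3 : x * d ≤ x * (2 * κ * x) := mul_le_mul_of_nonneg_left hd2 hxpos.le
  have h4 : x * (x * (2 * κ)) ≤ x ^ s * (x * (2 * κ)) :=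
    mul_le_mul_of_nonneg_right h2 (by positivity)
  nlinarith

/-- the final combination of the inequalities of one step -/
theorem combine_step (Nr ρ b X R Bc Ac lam cc y E x κ : ℝ) (d : ℕ) (hd1 : 1 ≤ d)
    (hρ0 : 0 < ρ) (hb : 0 ≤ b) (hX0 : 0 < X) (hbern : 2 * b * d ≤ ρ * X) (hR1 : 1 ≤ R)
    (hNr : 0 ≤ Nr) (hAc : 0 ≤ Ac) (hlam : lam = Real.log (1 / ρ)) (hlam0 : 0 ≤ lam)
    (hκx : 1 ≤ κ * x)
    (hdu : (d : ℝ) ≤ κ * x + 1)
    (hB : R * Real.exp (-cc * y) ≤ Bc)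
    (hA : Nr * (ρ - b / X) ^ d * Bc ≤ 2 * (((d : ℝ) + 1) * (R + R + 1)) * Ac)
    (H6 : lam + Real.log (36 * κ * x) + (κ * lam * x + cc * y) ≤ E * x) :
    Nr * Real.exp (-E * x) ≤ Ac := by
  have hbn := bern d hd1 ρ b X hρ0 hb hX0 hbern
  have hρd : ρ ^ d = Real.exp (-(d * lam)) := by
    rw [hlam, ← pow_eq_exp_neg d (1 / ρ) (by positivity)]
    congr 1
    field_simp
  rw [hρd] at hbn
  have hRpos : 0 < R := by linarith
  have hK : (0 : ℝ) < 36 * κ * x := by nlinarith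
  have h1 : Nr * (Real.exp (-(d * lam)) / 2) * (R * Real.exp (-cc * y)) ≤
      2 * (((d : ℝ) + 1) * (3 * R)) * Ac := by
    calc Nr * (Real.exp (-(d * lam)) / 2) * (R * Real.exp (-cc * y))
        ≤ Nr * (ρ - b / X) ^ d * Bc := by
          apply mul_le_mul (mul_le_mul_of_nonneg_left hbn hNr) hB (by positivity)
          exact mul_nonneg hNr (le_trans (by positivity) hbn)
      _ ≤ 2 * (((d : ℝ) + 1) * (R + R + 1)) * Ac := hA
      _ ≤ 2 * (((d : ℝ) + 1) * (3 * R)) * Ac := by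
          apply mul_le_mul_of_nonneg_right _ hAc
          apply mul_le_mul_of_nonneg_left _ (by norm_num)
          apply mul_le_mul_of_nonneg_left (by linarith) (by positivity)
  have h2 : Nr * (Real.exp (-(d * lam)) * Real.exp (-cc * y)) ≤ 12 * ((d : ℝ) + 1) * Ac := by
    have : R * (Nr * (Real.exp (-(d * lam)) * Real.exp (-cc * y))) ≤ R * (12 * ((d : ℝ) + 1) * Ac) := by
      nlinarith
    exact le_of_mul_le_mul_left this hRpos
  have h3 : 12 * ((d : ℝ) + 1) ≤ 36 * κ * x := by linarith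
  have h4 : Nr * (Real.exp (-(d * lam)) * Real.exp (-cc * y)) ≤ (36 * κ * x) * Ac :=
    h2.trans (mul_le_mul_of_nonneg_right h3 hAc)
  have h5 : Real.exp (-E * x) * (36 * κ * x) ≤ Real.exp (-(d * lam)) * Real.exp (-cc * y) := by
    have e : Real.exp (-E * x) * (36 * κ * x) = Real.exp (-E * x + Real.log (36 * κ * x)) := by
      rw [Real.exp_add, Real.exp_log hK]
    rw [← Real.exp_add, e]
    apply Real.exp_le_exp.mpr
    have : (d : ℝ) * lam ≤ (κ * x + 1) * lam := mul_le_mul_of_nonneg_right hdu hlam0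
    nlinarith
  have h6 : (36 * κ * x) * (Nr * Real.exp (-E * x)) ≤ (36 * κ * x) * Ac := by
    calc (36 * κ * x) * (Nr * Real.exp (-E * x)) = Nr * (Real.exp (-E * x) * (36 * κ * x)) := by ring
      _ ≤ Nr * (Real.exp (-(d * lam)) * Real.exp (-cc * y)) := mul_le_mul_of_nonneg_left h5 hNr
      _ ≤ (36 * κ * x) * Ac := h4
  exact le_of_mul_le_mul_left h6 hK

end Vale.Agent.P057
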