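import Vale.Agent.P057.CoreG

namespace Vale.Agent.P057

open Real Filter

/-- sets with property `P` of size `N exp (-(c + o(1)) (log N)^(1/s))` exist in `[1, N]` -/
def Big (P : Finset ℕ → Prop) (c : ℝ) (s : ℕ) : Prop :=
  ∀ ε > 0, ∃ N₀ : ℕ, ∀ N ≥ N₀, ∃ A : Finset ℕ, A ⊆ Finset.Icc 1 N ∧ P A ∧
    (N : ℝ) * Real.exp (-(c + ε) * (Real.log N) ^ ((1 : ℝ) / s)) ≤ A.card

theorem ev_const (A b : ℝ) (hA : 0 ≤ A) (hb : 0 < b) : ∀ᶠ x : ℝ in atTop, A ≤ Real.exp (x / b) := by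
  filter_upwards [ev_exp A b hb, eventually_ge_atTop 1] with x h1 h2
  nlinarith

theorem big_step (P' P : Finset ℕ → Prop) (ρ b : ℝ) (X₀ : ℕ) (hρ0 : 0 < ρ) (hρ1 : ρ ≤ 1)
    (hb : 0 ≤ b) (H : StepH P' P ρ b X₀) (s : ℕ) (hs : 1 ≤ s) (c' : ℝ) (hc' : 0 ≤ c')
    (hBig : Big P' c' s) (κ μ : ℝ) (hκ : 0 < κ) (hμ : 0 < μ) (hμs : μ ^ s = 2 / κ) :
    Big P (κ * Real.log (1 / ρ) + c' * μ) (s + 1) := by
  intro ε hε
  obtain ⟨lam, hlam⟩ : ∃ lam : ℝ, lam = Real.log (1 / ρ) := ⟨_, rfl⟩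
  have hlam0 : 0 ≤ lam := by
    rw [hlam]
    apply Real.log_nonneg
    rw [le_div_iff₀ hρ0]
    linarith
  obtain ⟨δ, hδdef⟩ : ∃ δ : ℝ, δ = ε / (4 * (c' * μ + 1)) := ⟨_, rfl⟩
  have hcμ : 0 ≤ c' * μ := by positivity
  have hδ : 0 < δ := by rw [hδdef]; positivity
  obtain ⟨ε', hε'def⟩ : ∃ ε' : ℝ, ε' = ε / (4 * (μ * (1 + δ))) := ⟨_, rfl⟩
  have hε' : 0 < ε' := by rw [hε'def]; positivity
  have hkey : (c' + ε') * (μ * (1 + δ)) ≤ c' * μ + ε / 2 := by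
    have h1 : ε' * (μ * (1 + δ)) = ε / 4 := by
      rw [hε'def]; field_simp
    have h2 : c' * μ * δ ≤ ε / 4 := by
      rw [hδdef, mul_div_assoc', div_le_div_iff₀ (by positivity) (by norm_num)]
      nlinarith
    nlinarith
  obtain ⟨N₀', hN₀'⟩ := hBig ε' hε'
  have hev : ∀ᶠ x : ℝ in atTop, 1 ≤ x ∧ 6 ≤ κ * x ∧ (X₀ : ℝ) ≤ Real.exp (x / (2 * κ)) ∧
      4 * b * κ * x ≤ ρ * Real.exp (x / (2 * κ)) ∧ (N₀' : ℝ) ≤ Real.exp (x / (2 * κ)) ∧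
      2 * Real.log 2 + 7 * Real.log (2 * κ * x) ≤ 2 * δ / κ * x ∧
      lam + 1 * Real.log (36 * κ * x) ≤ ε / 2 * x := by
    filter_upwards [eventually_ge_atTop 1, eventually_ge_atTop (6 / κ),
      ev_const X₀ (2 * κ) (by positivity) (by positivity),
      ev_exp (4 * b * κ / ρ) (2 * κ) (by positivity),
      ev_const N₀' (2 * κ) (by positivity) (by positivity),
      ev_log (2 * Real.log 2) 7 (2 * κ) (2 * δ / κ) (by norm_num) (by positivity) (by positivity),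
      ev_log lam 1 (36 * κ) (ε / 2) (by norm_num) (by positivity) (by positivity)]
      with x h0 h1 h2 h3 h4 h5 h6
    refine ⟨h0, ?_, h2, ?_, h4, h5, h6⟩
    · rw [div_le_iff₀ hκ] at h1
      linarith
    · have := mul_le_mul_of_nonneg_left h3 hρ0.le
      have e : ρ * (4 * b * κ / ρ * x) = 4 * b * κ * x := by field_simp
      linarith
  have hspos : (0 : ℝ) < (1 : ℝ) / ((s + 1 : ℕ) : ℝ) := by positivity
  have htend : Tendsto (fun N : ℕ => (Real.log N) ^ ((1 : ℝ) / ((s + 1 : ℕ) : ℝ))) atTop atTop :=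
    (tendsto_rpow_atTop hspos).comp (Real.tendsto_log_atTop.comp tendsto_natCast_atTop_atTop)
  obtain ⟨N₀, hN₀⟩ := Filter.eventually_atTop.mp (htend.eventually hev)
  refine ⟨max N₀ 1, fun N hN => ?_⟩
  obtain ⟨h0, h1, h2, h3, h4, h5, h6⟩ := hN₀ N (le_trans (le_max_left _ _) hN)
  have hN1 : 1 ≤ N := le_trans (le_max_right _ _) hN
  have hlogN : 0 ≤ Real.log N := Real.log_nonneg (by exact_mod_cast hN1)
  obtain ⟨x, hxdef⟩ : ∃ x : ℝ, x = (Real.log N) ^ ((1 : ℝ) / ((s + 1 : ℕ) : ℝ)) := ⟨_, rfl⟩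
  rw [← hxdef] at h0 h1 h2 h3 h4 h5 h6 ⊢
  have hx : x ^ (s + 1) = Real.log N := by
    rw [hxdef, one_div]
    exact Real.rpow_inv_natCast_pow hlogN (by omega)
  rw [← hlam]
  apply core_step P' P ρ b X₀ hρ0 hb H s hs (c' + ε') (by positivity) N₀' hN₀' κ μ δ lam
    (κ * lam + c' * μ + ε) hκ hμ hμs hδ hlam hlam0 N x hx h0 h1 h2 h3 h4 h5
  have hx0 : 0 ≤ x := by linarith
  have h7 := mul_le_mul_of_nonneg_right hkey hx0
  nlinarith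

end Vale.Agent.P057
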