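import Vale.Agent.P057.Defs

namespace Vale.Agent.P057

open Finset

theorem rk_block {k N N1 : ℕ} (hN : 1 ≤ N) (hle : N ≤ N1) {A : Finset ℕ}
    (hA : A ⊆ Finset.Icc 1 N1) (hAP : ¬ HasAP k A) : A.card * N ≤ 2 * N1 * rk k N := by
  classical
  have hfib : ∀ b ∈ Finset.range ((N1 - 1) / N + 1),
      (A.filter (fun x => (x - 1) / N = b)).card ≤ rk k N := by
    intro b _
    have hinj : Set.InjOn (fun x => x - b * N) (A.filter (fun x => (x - 1) / N = b) : Set ℕ) := by
      intro x hx y hy hxy
      have hx' := Finset.mem_filter.mp hx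
      have hy' := Finset.mem_filter.mp hy
      have hx1 := (Finset.mem_Icc.mp (hA hx'.1)).1
      have hy1 := (Finset.mem_Icc.mp (hA hy'.1)).1
      have h1 : b * N ≤ x - 1 := by
        rw [← hx'.2]; exact Nat.div_mul_le_self _ _
      have h2 : b * N ≤ y - 1 := by
        rw [← hy'.2]; exact Nat.div_mul_le_self _ _
      simp only at hxy
      omega
    rw [← Finset.card_image_of_injOn hinj]
    apply card_le_rk
    · intro z hz
      obtain ⟨x, hx, rfl⟩ := Finset.mem_image.mp hz
      have hx' := Finset.mem_filter.mp hx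
      have hx1 := (Finset.mem_Icc.mp (hA hx'.1)).1
      have h1 : b * N ≤ x - 1 := by
        rw [← hx'.2]; exact Nat.div_mul_le_self _ _
      have h2 : x - 1 < (b + 1) * N := by
        rw [← hx'.2]
        have := Nat.lt_div_mul_add (a := x - 1) (b := N) (by omega)
        have e : ((x - 1) / N + 1) * N = (x - 1) / N * N + N := by ring
        omega
      rw [Finset.mem_Icc]
      have : (b + 1) * N = b * N + N := by ring
      omega
    · rintro ⟨a, d, hd, hap⟩
      apply hAP
      refine ⟨a + b * N, d, hd, fun i hi => ?_⟩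
      obtain ⟨x, hx, hxe⟩ := Finset.mem_image.mp (hap i hi)
      have hx' := Finset.mem_filter.mp hx
      have hx1 := (Finset.mem_Icc.mp (hA hx'.1)).1
      have h1 : b * N ≤ x - 1 := by
        rw [← hx'.2]; exact Nat.div_mul_le_self _ _
      have : a + b * N + i * d = x := by
        omega
      rw [this]
      exact hx'.1
  have hmaps : ∀ x ∈ A, (x - 1) / N ∈ Finset.range ((N1 - 1) / N + 1) := by
    intro x hx
    have hx1 := (Finset.mem_Icc.mp (hA hx)).2
    rw [Finset.mem_range]
    have : (x - 1) / N ≤ (N1 - 1) / N := Nat.div_le_div_right (by omega)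
    omega
  have hcard := Finset.card_le_mul_card_image_of_maps_to hmaps (rk k N) hfib
  rw [Finset.card_range] at hcard
  have h3 : ((N1 - 1) / N + 1) * N ≤ 2 * N1 := by
    have : (N1 - 1) / N * N ≤ N1 - 1 := Nat.div_mul_le_self _ _
    have e : ((N1 - 1) / N + 1) * N = (N1 - 1) / N * N + N := by ring
    omega
  calc A.card * N ≤ (rk k N * ((N1 - 1) / N + 1)) * N := Nat.mul_le_mul_right _ hcard
    _ = rk k N * (((N1 - 1) / N + 1) * N) := by ring
    _ ≤ rk k N * (2 * N1) := Nat.mul_le_mul_left _ h3
    _ = 2 * N1 * rk k N := by ring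

end Vale.Agent.P057
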