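import Mathlib

namespace Vale.Agent.P057

open Finset

theorem block_general (P : Finset ℕ → Prop)
    (hP : ∀ (A A' : Finset ℕ) (c : ℕ), P A → (∀ x ∈ A', x + c ∈ A) → P A')
    {N N1 : ℕ} (hN : 1 ≤ N) (hle : N ≤ N1) {A : Finset ℕ}
    (hA : A ⊆ Finset.Icc 1 N1) (hPA : P A) :
    ∃ A' : Finset ℕ, A' ⊆ Finset.Icc 1 N ∧ P A' ∧ A.card * N ≤ 2 * N1 * A'.card := by
  classical
  have hne : (Finset.range ((N1 - 1) / N + 1)).Nonempty := ⟨0, by simp⟩
  obtain ⟨b, -, hbmax⟩ := Finset.exists_max_image (Finset.range ((N1 - 1) / N + 1))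
    (fun b => (A.filter (fun x => (x - 1) / N = b)).card) hne
  have hlow : ∀ x ∈ A.filter (fun x => (x - 1) / N = b), 1 ≤ x ∧ b * N ≤ x - 1 ∧ x - 1 < b * N + N := by
    intro x hx
    have hx' := Finset.mem_filter.mp hx
    have hx1 := (Finset.mem_Icc.mp (hA hx'.1)).1
    have h1 : b * N ≤ x - 1 := by
      rw [← hx'.2]; exact Nat.div_mul_le_self _ _
    have h2 : x - 1 < b * N + N := by
      rw [← hx'.2]
      exact Nat.lt_div_mul_add (a := x - 1) (b := N) (by omega)
    exact ⟨hx1, h1, h2⟩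
  have hinj : Set.InjOn (fun x => x - b * N) (A.filter (fun x => (x - 1) / N = b) : Set ℕ) := by
    intro x hx y hy hxy
    have h1 := hlow x hx
    have h2 := hlow y hy
    simp only at hxy
    omega
  refine ⟨(A.filter (fun x => (x - 1) / N = b)).image (fun x => x - b * N), ?_, ?_, ?_⟩
  · intro z hz
    obtain ⟨x, hx, rfl⟩ := Finset.mem_image.mp hz
    have h1 := hlow x hx
    rw [Finset.mem_Icc]
    omega
  · apply hP A _ (b * N) hPA
    intro z hz
    obtain ⟨x, hx, rfl⟩ := Finset.mem_image.mp hz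
    have h1 := hlow x hx
    have : x - b * N + b * N = x := by omega
    rw [this]
    exact (Finset.mem_filter.mp hx).1
  · rw [Finset.card_image_of_injOn hinj]
    have hmaps : ∀ x ∈ A, (x - 1) / N ∈ Finset.range ((N1 - 1) / N + 1) := by
      intro x hx
      have hx1 := (Finset.mem_Icc.mp (hA hx)).2
      rw [Finset.mem_range]
      have : (x - 1) / N ≤ (N1 - 1) / N := Nat.div_le_div_right (by omega)
      omega
    have hcard := Finset.card_le_mul_card_image_of_maps_to hmaps _ hbmax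
    rw [Finset.card_range] at hcard
    have h3 : ((N1 - 1) / N + 1) * N ≤ 2 * N1 := by
      have : (N1 - 1) / N * N ≤ N1 - 1 := Nat.div_mul_le_self _ _
      have e : ((N1 - 1) / N + 1) * N = (N1 - 1) / N * N + N := by ring
      omega
    set c := (A.filter (fun x => (x - 1) / N = b)).card
    calc A.card * N ≤ (c * ((N1 - 1) / N + 1)) * N := Nat.mul_le_mul_right _ hcard
      _ = c * (((N1 - 1) / N + 1) * N) := by ring
      _ ≤ c * (2 * N1) := Nat.mul_le_mul_left _ h3
      _ = 2 * N1 * c := by ring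

end Vale.Agent.P057
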