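import Vale.Agent.P057.BigStep

namespace Vale.Agent.P057

open Real Finset

theorem big_base (k D : ℕ) : Big (FreeD k D) 1 1 := by
  intro ε hε
  refine ⟨1, fun N hN => ⟨{1}, ?_, FreeD_singleton k D 1, ?_⟩⟩
  · intro x hx
    rw [Finset.mem_singleton] at hx
    rw [Finset.mem_Icc]
    omega
  · have hN1 : (1 : ℝ) ≤ N := by exact_mod_cast hN
    have hNpos : (0 : ℝ) < N := by linarith
    have hlog : 0 ≤ Real.log N := Real.log_nonneg hN1
    have e1 : (Real.log N) ^ ((1 : ℝ) / ((1 : ℕ) : ℝ)) = Real.log N := by simp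
    rw [e1]
    have h1 : Real.exp (-(1 + ε) * Real.log N) ≤ Real.exp (-Real.log N) := by
      apply Real.exp_le_exp.mpr
      nlinarith
    rw [Real.exp_neg, Real.exp_log hNpos] at h1
    have h2 : (N : ℝ) * Real.exp (-(1 + ε) * Real.log N) ≤ (N : ℝ) * (N : ℝ)⁻¹ :=
      mul_le_mul_of_nonneg_left h1 hNpos.le
    rw [mul_inv_cancel₀ hNpos.ne'] at h2
    simpa using h2

/-- one step with the optimal choice of the parameter -/
theorem big_step_opt (P' P : Finset ℕ → Prop) (ρ b : ℝ) (X₀ : ℕ) (hρ0 : 0 < ρ) (hρ1 : ρ < 1)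
    (hb : 0 ≤ b) (H : StepH P' P ρ b X₀) (s : ℕ) (hs : 1 ≤ s) (Pp : ℝ) (hPp : 0 < Pp)
    (hBig : Big P' ((s : ℝ) * Pp ^ ((1 : ℝ) / s)) s) :
    Big P (((s + 1 : ℕ) : ℝ) * (2 * Real.log (1 / ρ) * Pp) ^ ((1 : ℝ) / ((s + 1 : ℕ) : ℝ))) (s + 1) := by
  obtain ⟨lam, hlam⟩ : ∃ lam : ℝ, lam = Real.log (1 / ρ) := ⟨_, rfl⟩
  have hlampos : 0 < lam := by
    rw [hlam]
    apply Real.log_pos
    rw [lt_div_iff₀ hρ0]
    linarith
  rw [← hlam]
  obtain ⟨g, hg⟩ : ∃ g : ℝ, g = (2 * lam * Pp) ^ ((1 : ℝ) / ((s + 1 : ℕ) : ℝ)) := ⟨_, rfl⟩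
  have hgpos : 0 < g := by rw [hg]; positivity
  have hgpow : g ^ (s + 1) = 2 * lam * Pp := by
    rw [hg, one_div]
    exact Real.rpow_inv_natCast_pow (by positivity) (by omega)
  obtain ⟨a, ha⟩ : ∃ a : ℝ, a = Pp ^ ((1 : ℝ) / s) := ⟨_, rfl⟩
  have hapos : 0 < a := by rw [ha]; positivity
  have hapow : a ^ s = Pp := by
    rw [ha, one_div]
    exact Real.rpow_inv_natCast_pow hPp.le (by omega)
  obtain ⟨κ, hκ⟩ : ∃ κ : ℝ, κ = g / lam := ⟨_, rfl⟩
  have hκpos : 0 < κ := by rw [hκ]; positivity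
  obtain ⟨μ, hμ⟩ : ∃ μ : ℝ, μ = (2 / κ) ^ ((1 : ℝ) / s) := ⟨_, rfl⟩
  have hμpos : 0 < μ := by rw [hμ]; positivity
  have hμpow : μ ^ s = 2 / κ := by
    rw [hμ, one_div]
    exact Real.rpow_inv_natCast_pow (by positivity) (by omega)
  have haμ : a * μ = g := by
    have h1 : (a * μ) ^ s = g ^ s := by
      rw [mul_pow, hapow, hμpow, hκ]
      have : g ^ s * g = 2 * lam * Pp := by rw [← pow_succ]; exact hgpow
      field_simp
      linarith
    exact (pow_left_inj₀ (by positivity) hgpos.le (by omega)).mp h1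
  have hmain := big_step P' P ρ b X₀ hρ0 hρ1.le hb H s hs ((s : ℝ) * a) (by positivity)
    (by rw [ha]; exact hBig) κ μ hκpos hμpos hμpow
  rw [← hlam] at hmain
  have e : κ * lam + (s : ℝ) * a * μ = ((s + 1 : ℕ) : ℝ) * g := by
    have h1 : κ * lam = g := by rw [hκ]; field_simp
    rw [h1, mul_assoc, haμ]
    push_cast
    ring
  rw [e] at hmain
  rw [← hg]
  exact hmain

/-- product of the quantities `2 λ` over the upper levels -/
noncomputable def Pprod (D t : ℕ) : ℝ := ∏ i ∈ range t, (2 * ((2 ^ i * D : ℕ) : ℝ) * Real.log 2)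

theorem Pprod_pos (D t : ℕ) (hD : 1 ≤ D) : 0 < Pprod D t := by
  unfold Pprod
  apply Finset.prod_pos
  intro i _
  have h1 : 0 < Real.log 2 := Real.log_pos (by norm_num)
  have h2 : (0 : ℝ) < ((2 ^ i * D : ℕ) : ℝ) := by
    have : 0 < 2 ^ i * D := by positivity
    exact_mod_cast this
  positivity

theorem Pprod_succ (D t : ℕ) : Pprod D (t + 1) = 2 * ((D : ℝ) * Real.log 2) * Pprod (2 * D) t := by
  unfold Pprod
  rw [Finset.prod_range_succ']
  have : ∀ i ∈ range t, (2 * ((2 ^ (i + 1) * D : ℕ) : ℝ) * Real.log 2) =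
      (2 * ((2 ^ i * (2 * D) : ℕ) : ℝ) * Real.log 2) := by
    intro i _
    congr 3
    ring
  rw [Finset.prod_congr rfl this]
  simp
  ring

theorem chain (k : ℕ) : ∀ t D : ℕ, 1 ≤ D → 2 ^ t * D + 1 ≤ k →
    Big (FreeD k D) (((t + 1 : ℕ) : ℝ) * (Pprod D t) ^ ((1 : ℝ) / ((t + 1 : ℕ) : ℝ))) (t + 1) := by
  intro t
  induction t with
  | zero =>
    intro D _ _
    have := big_base k D
    simpa [Pprod] using this
  | succ t ih =>
    intro D hD hk
    have hk2 : 2 ^ t * (2 * D) + 1 ≤ k := by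
      have : 2 ^ (t + 1) * D = 2 ^ t * (2 * D) := by ring
      omega
    have hk1 : 2 * D + 1 ≤ k := by
      have h1 : 1 ≤ 2 ^ t := Nat.one_le_two_pow
      have : 1 * (2 * D) ≤ 2 ^ t * (2 * D) := Nat.mul_le_mul_right _ h1
      omega
    have hprev := ih (2 * D) (by omega) hk2
    have hpow : (1 : ℝ) < 2 ^ D := one_lt_pow₀ (by norm_num) (by omega)
    have hstep := big_step_opt (FreeD k (2 * D)) (FreeD k D) (1 / 2 ^ D) 1 (2 ^ (D + 1))
      (by positivity) (by rw [div_lt_one (by positivity)]; exact hpow) (by norm_num)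
      (stepH_D k D hk1) (t + 1) (by omega) (Pprod (2 * D) t) (Pprod_pos _ _ (by omega)) hprev
    have e : Real.log (1 / (1 / (2 : ℝ) ^ D)) = (D : ℝ) * Real.log 2 := by
      rw [one_div_one_div, Real.log_pow]
    rw [e, ← Pprod_succ] at hstep
    exact hstep

end Vale.Agent.P057
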