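import Mathlib

namespace Vale.Agent.P057

open Finset Real

theorem pi_cube_ge {n : ℕ} (hn : 6 ≤ n) : n + 1 ≤ Nat.primeCounting (n ^ 3) := by
  have h := Chebyshev.pi_ge (n ^ 3)
  have hn' : (6 : ℝ) ≤ n := by exact_mod_cast hn
  have hlogn : Real.log n ≤ n - 1 := Real.log_le_sub_one_of_pos (by linarith)
  have hlogn0 : 0 < Real.log n := Real.log_pos (by linarith)
  have hlog2 : (0.69 : ℝ) < Real.log 2 := by
    have := Real.log_two_gt_d9
    linarith
  have hlog2' : Real.log 2 < 1 := by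
    have := Real.log_two_lt_d9
    linarith
  have hcube : Real.log ((n ^ 3 : ℕ) : ℝ) = 3 * Real.log n := by
    push_cast
    rw [Real.log_pow]
    norm_num
  have hcube1 : Real.log (((n ^ 3 : ℕ) : ℝ) + 1) ≤ Real.log 2 + 3 * Real.log n := by
    rw [← hcube, ← Real.log_mul (by norm_num) (by positivity)]
    apply Real.log_le_log (by positivity)
    have : (1 : ℝ) ≤ ((n ^ 3 : ℕ) : ℝ) := by
      have : 1 ≤ n ^ 3 := Nat.one_le_pow _ _ (by omega)
      exact_mod_cast this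
    linarith
  have key : ((n : ℝ) + 1) ≤ (((n ^ 3 : ℕ) : ℝ) * Real.log 2 - Real.log (((n ^ 3 : ℕ) : ℝ) + 1)) /
      Real.log ((n ^ 3 : ℕ) : ℝ) := by
    rw [le_div_iff₀ (by rw [hcube]; positivity), hcube]
    have h3 : ((n ^ 3 : ℕ) : ℝ) = (n : ℝ) ^ 3 := by push_cast; ring
    rw [h3] at hcube1 ⊢
    have h4 : ((n : ℝ) + 1) * (3 * Real.log n) ≤ (n + 1) * (3 * (n - 1)) := by
      apply mul_le_mul_of_nonneg_left _ (by positivity)
      linarith
    have h5 : (n : ℝ) ^ 3 * 0.69 ≤ (n : ℝ) ^ 3 * Real.log 2 := by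
      apply mul_le_mul_of_nonneg_left hlog2.le (by positivity)
    nlinarith [mul_nonneg (mul_nonneg (by linarith : (0 : ℝ) ≤ n) (by linarith : (0 : ℝ) ≤ n))
      (by linarith : (0 : ℝ) ≤ (n : ℝ) - 6)]
  have := key.trans h
  exact_mod_cast this

/-- there are `n` odd primes below `n ^ 3` -/
theorem exists_odd_primes {n : ℕ} (hn : 6 ≤ n) :
    ∃ P : Finset ℕ, P.card = n ∧ ∀ p ∈ P, p.Prime ∧ p % 2 = 1 ∧ p ≤ n ^ 3 := by
  have h1 := pi_cube_ge hn
  rw [← Nat.primesLE_card_eq_primeCounting] at h1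
  have h2 : n ≤ ((Nat.primesLE (n ^ 3)).erase 2).card := by
    have := Finset.pred_card_le_card_erase (s := Nat.primesLE (n ^ 3)) (a := 2)
    omega
  obtain ⟨P, hP, hcard⟩ := Finset.exists_subset_card_eq h2
  refine ⟨P, hcard, fun p hp => ?_⟩
  have hp' := Finset.mem_erase.mp (hP hp)
  have hp'' := Nat.mem_primesLE.mp hp'.2
  exact ⟨hp''.2, (hp''.2.eq_two_or_odd).resolve_left hp'.1, hp''.1⟩

end Vale.Agent.P057
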