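import Vale.Agent.P057.Construct
import Vale.Agent.P057.Block
import Vale.Agent.P057.Primes

namespace Vale.Agent.P057

open Finset

theorem rk4_ge (n X N : ℕ) (hn : 6 ≤ n) (hX : 4 ≤ X) (hN1 : 1 ≤ N) (hN : N ≤ X ^ n) :
    (N : ℝ) * (5 / 9 - 2 / X) ^ n ≤ 2 * (((n : ℝ) + 1) * ((n : ℝ) ^ 7 * (X : ℝ) ^ 2 + 1)) * rk 4 N := by
  classical
  obtain ⟨P, hPcard, hP⟩ := exists_odd_primes hn
  let s : ↥P → ℕ := fun p => p.1 ^ Nat.clog p.1 X
  have hprime : ∀ p : ↥P, p.1.Prime := fun p => (hP p.1 p.2).1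
  have hodd : ∀ p, s p % 2 = 1 := by
    intro p
    have h1 : Odd p.1 := Nat.odd_iff.mpr (hP p.1 p.2).2.1
    exact Nat.odd_iff.mp h1.pow
  have hco : Pairwise (Function.onFun Nat.Coprime s) := by
    intro p p' hne
    apply Nat.Coprime.pow
    exact (Nat.coprime_primes (hprime p) (hprime p')).mpr (fun h => hne (Subtype.ext h))
  have hsge : ∀ p, X ≤ s p := fun p => Nat.le_pow_clog (hprime p).one_lt X
  have hsle : ∀ p, s p ≤ n ^ 3 * X := by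
    intro p
    have h1 := Nat.pow_pred_clog_lt_self (hprime p).one_lt (show 1 < X by omega)
    have h2 : 0 < Nat.clog p.1 X := Nat.clog_pos (hprime p).one_lt (by omega)
    have h3 : s p = p.1 * p.1 ^ (Nat.clog p.1 X).pred := by
      show p.1 ^ Nat.clog p.1 X = _
      conv_lhs => rw [← Nat.succ_pred_eq_of_pos h2]
      rw [pow_succ]; ring
    rw [h3]
    exact Nat.mul_le_mul (hP p.1 p.2).2.2 h1.le
  have hcardι : Fintype.card ↥P = n := by rw [Fintype.card_coe, hPcard]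
  obtain ⟨A, hA, hAP, hAcard⟩ := exists_AP4free s hodd hco
  have hN2 : X ^ n ≤ ∏ p, s p := by
    calc X ^ n = ∏ _p : ↥P, X := by rw [Finset.prod_const, Finset.card_univ, hcardι]
      _ ≤ ∏ p, s p := Finset.prod_le_prod' fun p _ => hsge p
  have hblock := rk_block (k := 4) hN1 (hN.trans hN2) hA hAP
  rw [hcardι] at hAcard
  have hXpos : (0 : ℝ) < X := by
    have : 0 < X := by omega
    exact_mod_cast this
  have hX4 : (4 : ℝ) ≤ X := by exact_mod_cast hX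
  have hc : (0 : ℝ) ≤ 5 / 9 - 2 / X := by
    have : 2 / (X : ℝ) ≤ 2 / 4 := by
      apply div_le_div_of_nonneg_left (by norm_num) (by norm_num) hX4
    linarith
  have h1 : ∀ p, (s p : ℝ) * (5 / 9 - 2 / X) ≤ ((W (s p)).card : ℝ) := by
    intro p
    have hw : (5 : ℝ) * (s p) ≤ 9 * ((W (s p)).card : ℝ) + 18 := by exact_mod_cast card_W_ge (s p)
    have hs : (X : ℝ) ≤ s p := by exact_mod_cast hsge p
    have : (s p : ℝ) * (2 / X) ≥ 2 := by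
      rw [mul_div_assoc', ge_iff_le, le_div_iff₀ hXpos]
      linarith
    nlinarith
  have h2 : ((∏ p, s p : ℕ) : ℝ) * (5 / 9 - 2 / X) ^ n ≤ ((∏ p, (W (s p)).card : ℕ) : ℝ) := by
    push_cast
    calc (∏ p, (s p : ℝ)) * (5 / 9 - 2 / X) ^ n = ∏ p, ((s p : ℝ) * (5 / 9 - 2 / X)) := by
          rw [Finset.prod_mul_distrib, Finset.prod_const, Finset.card_univ, hcardι]
      _ ≤ ∏ p, ((W (s p)).card : ℝ) :=
          Finset.prod_le_prod (fun p _ => mul_nonneg (by positivity) hc) (fun p _ => h1 p)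
  have h3 : ((∑ p, (s p) ^ 2 : ℕ) : ℝ) ≤ (n : ℝ) ^ 7 * (X : ℝ) ^ 2 := by
    have : ∑ p, (s p) ^ 2 ≤ n ^ 7 * X ^ 2 := by
      calc ∑ p, (s p) ^ 2 ≤ ∑ _p : ↥P, (n ^ 3 * X) ^ 2 :=
            Finset.sum_le_sum fun p _ => Nat.pow_le_pow_left (hsle p) 2
        _ = n * (n ^ 3 * X) ^ 2 := by rw [Finset.sum_const, Finset.card_univ, hcardι, smul_eq_mul]
        _ = n ^ 7 * X ^ 2 := by ring
    exact_mod_cast this
  have hAcard' : ((∏ p, (W (s p)).card : ℕ) : ℝ) ≤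
      (A.card : ℝ) * (((n : ℝ) + 1) * (((∑ p, (s p) ^ 2 : ℕ) : ℝ) + 1)) := by exact_mod_cast hAcard
  have hblock' : (A.card : ℝ) * N ≤ 2 * ((∏ p, s p : ℕ) : ℝ) * rk 4 N := by exact_mod_cast hblock
  set N1 : ℝ := ((∏ p, s p : ℕ) : ℝ) with hN1def
  have hN1pos : 0 < N1 := by
    have : 0 < ∏ p, s p := lt_of_lt_of_le (by positivity) hN2
    rw [hN1def]
    exact_mod_cast this
  have hK : ((n : ℝ) + 1) * (((∑ p, (s p) ^ 2 : ℕ) : ℝ) + 1) ≤
      ((n : ℝ) + 1) * ((n : ℝ) ^ 7 * (X : ℝ) ^ 2 + 1) := by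
    apply mul_le_mul_of_nonneg_left _ (by positivity)
    linarith
  have hfin : N1 * ((N : ℝ) * (5 / 9 - 2 / X) ^ n) ≤
      N1 * (2 * (((n : ℝ) + 1) * ((n : ℝ) ^ 7 * (X : ℝ) ^ 2 + 1)) * rk 4 N) := by
    calc N1 * ((N : ℝ) * (5 / 9 - 2 / X) ^ n) = (N : ℝ) * (N1 * (5 / 9 - 2 / X) ^ n) := by ring
      _ ≤ (N : ℝ) * ((A.card : ℝ) * (((n : ℝ) + 1) * (((∑ p, (s p) ^ 2 : ℕ) : ℝ) + 1))) := by
          apply mul_le_mul_of_nonneg_left (h2.trans hAcard') (by positivity)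
      _ = ((A.card : ℝ) * N) * (((n : ℝ) + 1) * (((∑ p, (s p) ^ 2 : ℕ) : ℝ) + 1)) := by ring
      _ ≤ (2 * N1 * rk 4 N) * (((n : ℝ) + 1) * (((∑ p, (s p) ^ 2 : ℕ) : ℝ) + 1)) := by
          apply mul_le_mul_of_nonneg_right hblock' (by positivity)
      _ ≤ (2 * N1 * rk 4 N) * (((n : ℝ) + 1) * ((n : ℝ) ^ 7 * (X : ℝ) ^ 2 + 1)) := by
          apply mul_le_mul_of_nonneg_left hK (by positivity)
      _ = N1 * (2 * (((n : ℝ) + 1) * ((n : ℝ) ^ 7 * (X : ℝ) ^ 2 + 1)) * rk 4 N) := by ring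
  exact le_of_mul_le_mul_left hfin hN1pos

end Vale.Agent.P057
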