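import Vale.Agent.P057.Level1
import Vale.Agent.P057.Primes
import Vale.Agent.P057.Block

namespace Vale.Agent.P057

open Finset

theorem moduli (n X : ℕ) (hn : 6 ≤ n) (hX : 2 ≤ X) :
    ∃ s : Fin n → ℕ, (∀ i, s i % 2 = 1) ∧ Pairwise (Function.onFun Nat.Coprime s) ∧
      ∀ i, X ≤ s i ∧ s i ≤ n ^ 3 * X := by
  classical
  obtain ⟨P, hPcard, hP⟩ := exists_odd_primes hn
  let e : Fin n ≃ ↥P := (Finset.equivFinOfCardEq hPcard).symm
  have hprime : ∀ i, (e i).1.Prime := fun i => (hP (e i).1 (e i).2).1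
  refine ⟨fun i => (e i).1 ^ Nat.clog (e i).1 X, ?_, ?_, ?_⟩
  · intro i
    have h1 : Odd (e i).1 := Nat.odd_iff.mpr (hP (e i).1 (e i).2).2.1
    exact Nat.odd_iff.mp h1.pow
  · intro i j hne
    apply Nat.Coprime.pow
    exact (Nat.coprime_primes (hprime i) (hprime j)).mpr
      (fun h => hne (e.injective (Subtype.ext h)))
  · intro i
    refine ⟨Nat.le_pow_clog (hprime i).one_lt X, ?_⟩
    have h1 := Nat.pow_pred_clog_lt_self (hprime i).one_lt (show 1 < X by omega)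
    have h2 : 0 < Nat.clog (e i).1 X := Nat.clog_pos (hprime i).one_lt (by omega)
    have h3 : (e i).1 ^ Nat.clog (e i).1 X = (e i).1 * (e i).1 ^ (Nat.clog (e i).1 X).pred := by
      conv_lhs => rw [← Nat.succ_pred_eq_of_pos h2]
      rw [pow_succ]; ring
    show (e i).1 ^ Nat.clog (e i).1 X ≤ n ^ 3 * X
    rw [h3]
    exact Nat.mul_le_mul (hP (e i).1 (e i).2).2.2 h1.le

/-- product of cardinalities versus product of moduli -/
theorem prod_card_ge {n : ℕ} (s : Fin n → ℕ) (c : Fin n → ℕ) (a b : ℝ) (X : ℕ) (hX : 0 < X)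
    (hab : 0 ≤ a - b / X) (hb : 0 ≤ b) (hs : ∀ i, X ≤ s i) (hc : ∀ i, a * (s i : ℝ) - b ≤ c i) :
    ((∏ i, s i : ℕ) : ℝ) * (a - b / X) ^ n ≤ ((∏ i, c i : ℕ) : ℝ) := by
  have hXpos : (0 : ℝ) < X := by exact_mod_cast hX
  push_cast
  calc (∏ i, (s i : ℝ)) * (a - b / X) ^ n = ∏ i, ((s i : ℝ) * (a - b / X)) := by
        rw [Finset.prod_mul_distrib, Finset.prod_const, Finset.card_univ, Fintype.card_fin]
    _ ≤ ∏ i, (c i : ℝ) := by
        apply Finset.prod_le_prod (fun i _ => mul_nonneg (by positivity) hab)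
        intro i _
        have h1 : (X : ℝ) ≤ s i := by exact_mod_cast hs i
        have h2 : b ≤ (s i : ℝ) * (b / X) := by
          rw [mul_div_assoc', le_div_iff₀ hXpos]
          nlinarith
        have := hc i
        nlinarith

theorem sum_sq_le {n : ℕ} (s : Fin n → ℕ) (X : ℕ) (hs : ∀ i, s i ≤ n ^ 3 * X) :
    ∑ i, (s i) ^ 2 ≤ n ^ 7 * X ^ 2 := by
  calc ∑ i, (s i) ^ 2 ≤ ∑ _i : Fin n, (n ^ 3 * X) ^ 2 :=
        Finset.sum_le_sum fun i _ => Nat.pow_le_pow_left (hs i) 2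
    _ = n * (n ^ 3 * X) ^ 2 := by rw [Finset.sum_const, Finset.card_univ, Fintype.card_fin, smul_eq_mul]
    _ = n ^ 7 * X ^ 2 := by ring

theorem pow_le_prod {n : ℕ} (s : Fin n → ℕ) (X : ℕ) (hs : ∀ i, X ≤ s i) : X ^ n ≤ ∏ i, s i := by
  calc X ^ n = ∏ _i : Fin n, X := by rw [Finset.prod_const, Finset.card_univ, Fintype.card_fin]
    _ ≤ ∏ i, s i := Finset.prod_le_prod' fun i _ => hs i

theorem free52_ge (m Z R : ℕ) (hm : 6 ≤ m) (hZ : 4 ≤ Z) (hR1 : 1 ≤ R) (hR : R ≤ Z ^ m) :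
    ∃ B : Finset ℕ, B ⊆ Finset.Icc 1 R ∧ Free52 B ∧
      (R : ℝ) * (1 / 4 - 1 / Z) ^ m ≤ 2 * ((m : ℝ) ^ 7 * (Z : ℝ) ^ 2 + 1) * B.card := by
  obtain ⟨s, hodd, hco, hs⟩ := moduli m Z hm (by omega)
  have hs0 : ∀ i, s i ≠ 0 := fun i => by have := hodd i; omega
  obtain ⟨B1, hB1, hfree1, hcard1⟩ := exists_Free52 s hs0 hco
  have hR2 : Z ^ m ≤ ∏ i, s i := pow_le_prod s Z (fun i => (hs i).1)
  obtain ⟨B, hB, hfree, hcard⟩ := block_general Free52 Free52_shift hR1 (hR.trans hR2) hB1 hfree1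
  refine ⟨B, hB, hfree, ?_⟩
  have hZ4 : (4 : ℝ) ≤ Z := by exact_mod_cast hZ
  have hc : (0 : ℝ) ≤ 1 / 4 - 1 / Z := by
    have : 1 / (Z : ℝ) ≤ 1 / 4 := by
      apply div_le_div_of_nonneg_left (by norm_num) (by norm_num) hZ4
    linarith
  have h2 := prod_card_ge s (fun i => (W2 (s i)).card) (1 / 4) 1 Z (by omega) hc (by norm_num)
    (fun i => (hs i).1) (fun i => by
      have : ((s i : ℕ) : ℝ) ≤ 4 * ((W2 (s i)).card : ℝ) + 4 := by exact_mod_cast card_W2_ge (s i)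
      linarith)
  have h3 : ((∑ i, (s i) ^ 2 : ℕ) : ℝ) ≤ (m : ℝ) ^ 7 * (Z : ℝ) ^ 2 := by
    exact_mod_cast sum_sq_le s Z (fun i => (hs i).2)
  have hcard1' : ((∏ i, (W2 (s i)).card : ℕ) : ℝ) ≤
      (B1.card : ℝ) * (((∑ i, (s i) ^ 2 : ℕ) : ℝ) + 1) := by exact_mod_cast hcard1
  have hcard' : (B1.card : ℝ) * R ≤ 2 * ((∏ i, s i : ℕ) : ℝ) * B.card := by exact_mod_cast hcard
  obtain ⟨R1, hR1def⟩ : ∃ R1 : ℝ, R1 = ((∏ i, s i : ℕ) : ℝ) := ⟨_, rfl⟩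
  rw [← hR1def] at h2 hcard'
  have hR1pos : 0 < R1 := by
    have : 0 < ∏ i, s i := lt_of_lt_of_le (by positivity) hR2
    rw [hR1def]
    exact_mod_cast this
  have hfin : R1 * ((R : ℝ) * (1 / 4 - 1 / Z) ^ m) ≤
      R1 * (2 * ((m : ℝ) ^ 7 * (Z : ℝ) ^ 2 + 1) * B.card) := by
    calc R1 * ((R : ℝ) * (1 / 4 - 1 / Z) ^ m) = (R : ℝ) * (R1 * (1 / 4 - 1 / Z) ^ m) := by ring
      _ ≤ (R : ℝ) * ((B1.card : ℝ) * (((∑ i, (s i) ^ 2 : ℕ) : ℝ) + 1)) := by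
          apply mul_le_mul_of_nonneg_left (h2.trans hcard1') (by positivity)
      _ = ((B1.card : ℝ) * R) * (((∑ i, (s i) ^ 2 : ℕ) : ℝ) + 1) := by ring
      _ ≤ (2 * R1 * B.card) * (((∑ i, (s i) ^ 2 : ℕ) : ℝ) + 1) := by
          apply mul_le_mul_of_nonneg_right hcard' (by positivity)
      _ ≤ (2 * R1 * B.card) * ((m : ℝ) ^ 7 * (Z : ℝ) ^ 2 + 1) := by
          apply mul_le_mul_of_nonneg_left (by linarith) (by positivity)
      _ = R1 * (2 * ((m : ℝ) ^ 7 * (Z : ℝ) ^ 2 + 1) * B.card) := by ring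
  exact le_of_mul_le_mul_left hfin hR1pos

theorem rk5_ge_aux (n X N R : ℕ) (hn : 6 ≤ n) (hX : 4 ≤ X) (hN1 : 1 ≤ N) (hN : N ≤ X ^ n)
    (B : Finset ℕ) (hB : B ⊆ Finset.Icc 1 R) (hfree : Free52 B) :
    (N : ℝ) * (7 / 12 - 2 / X) ^ n * B.card ≤
      2 * (((n : ℝ) + 1) * ((n : ℝ) ^ 7 * (X : ℝ) ^ 2 + R + 1)) * rk 5 N := by
  obtain ⟨s, hodd, hco, hs⟩ := moduli n X hn (by omega)
  obtain ⟨A, hA, hAP, hAcard⟩ := exists_AP5free s hodd hco R B hB hfree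
  rw [Fintype.card_fin] at hAcard
  have hN2 : X ^ n ≤ ∏ i, s i := pow_le_prod s X (fun i => (hs i).1)
  have hblock := rk_block (k := 5) hN1 (hN.trans hN2) hA hAP
  have hX4 : (4 : ℝ) ≤ X := by exact_mod_cast hX
  have hc : (0 : ℝ) ≤ 7 / 12 - 2 / X := by
    have : 2 / (X : ℝ) ≤ 2 / 4 := by
      apply div_le_div_of_nonneg_left (by norm_num) (by norm_num) hX4
    linarith
  have h2 := prod_card_ge s (fun i => (W5 (s i)).card) (7 / 12) 2 X (by omega) hc (by norm_num)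
    (fun i => (hs i).1) (fun i => by
      have : 7 * ((s i : ℕ) : ℝ) ≤ 12 * ((W5 (s i)).card : ℝ) + 24 := by
        exact_mod_cast card_W5_ge (s i)
      linarith)
  have h3 : ((∑ i, (s i) ^ 2 : ℕ) : ℝ) ≤ (n : ℝ) ^ 7 * (X : ℝ) ^ 2 := by
    exact_mod_cast sum_sq_le s X (fun i => (hs i).2)
  have hAcard' : ((∏ i, (W5 (s i)).card : ℕ) : ℝ) * B.card ≤
      (A.card : ℝ) * (((n : ℝ) + 1) * (((∑ i, (s i) ^ 2 : ℕ) : ℝ) + R + 1)) := by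
    exact_mod_cast hAcard
  have hblock' : (A.card : ℝ) * N ≤ 2 * ((∏ i, s i : ℕ) : ℝ) * rk 5 N := by exact_mod_cast hblock
  obtain ⟨N1, hN1def⟩ : ∃ N1 : ℝ, N1 = ((∏ i, s i : ℕ) : ℝ) := ⟨_, rfl⟩
  rw [← hN1def] at h2 hblock'
  have hN1pos : 0 < N1 := by
    have : 0 < ∏ i, s i := lt_of_lt_of_le (by positivity) hN2
    rw [hN1def]
    exact_mod_cast this
  have hfin : N1 * ((N : ℝ) * (7 / 12 - 2 / X) ^ n * B.card) ≤
      N1 * (2 * (((n : ℝ) + 1) * ((n : ℝ) ^ 7 * (X : ℝ) ^ 2 + R + 1)) * rk 5 N) := by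
    calc N1 * ((N : ℝ) * (7 / 12 - 2 / X) ^ n * B.card)
        = (N : ℝ) * ((N1 * (7 / 12 - 2 / X) ^ n) * B.card) := by ring
      _ ≤ (N : ℝ) * (((∏ i, (W5 (s i)).card : ℕ) : ℝ) * B.card) := by
          apply mul_le_mul_of_nonneg_left _ (by positivity)
          apply mul_le_mul_of_nonneg_right h2 (by positivity)
      _ ≤ (N : ℝ) * ((A.card : ℝ) * (((n : ℝ) + 1) * (((∑ i, (s i) ^ 2 : ℕ) : ℝ) + R + 1))) := by
          apply mul_le_mul_of_nonneg_left hAcard' (by positivity)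
      _ = ((A.card : ℝ) * N) * (((n : ℝ) + 1) * (((∑ i, (s i) ^ 2 : ℕ) : ℝ) + R + 1)) := by ring
      _ ≤ (2 * N1 * rk 5 N) * (((n : ℝ) + 1) * (((∑ i, (s i) ^ 2 : ℕ) : ℝ) + R + 1)) := by
          apply mul_le_mul_of_nonneg_right hblock' (by positivity)
      _ ≤ (2 * N1 * rk 5 N) * (((n : ℝ) + 1) * ((n : ℝ) ^ 7 * (X : ℝ) ^ 2 + R + 1)) := by
          apply mul_le_mul_of_nonneg_left _ (by positivity)
          apply mul_le_mul_of_nonneg_left _ (by positivity)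
          linarith
      _ = N1 * (2 * (((n : ℝ) + 1) * ((n : ℝ) ^ 7 * (X : ℝ) ^ 2 + R + 1)) * rk 5 N) := by ring
  exact le_of_mul_le_mul_left hfin hN1pos

/-- the finite two-level bound -/
theorem rk5_ge (n m X Z N : ℕ) (hn : 6 ≤ n) (hm : 6 ≤ m) (hX : 4 ≤ X) (hZ : 4 ≤ Z) (hN1 : 1 ≤ N)
    (hN : N ≤ X ^ n) (hR : n ^ 7 * X ^ 2 ≤ Z ^ m) :
    (N : ℝ) * (7 / 12 - 2 / X) ^ n * (1 / 4 - 1 / Z) ^ m ≤
      12 * ((n : ℝ) + 1) * ((m : ℝ) ^ 7 * (Z : ℝ) ^ 2 + 1) * rk 5 N := by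
  have hR1 : 1 ≤ n ^ 7 * X ^ 2 := by
    have h1 : 1 ≤ n ^ 7 := Nat.one_le_pow _ _ (by omega)
    have h2 : 1 ≤ X ^ 2 := Nat.one_le_pow _ _ (by omega)
    nlinarith
  obtain ⟨B, hB, hfree, hBcard⟩ := free52_ge m Z (n ^ 7 * X ^ 2) hm hZ hR1 hR
  have hmain := rk5_ge_aux n X N (n ^ 7 * X ^ 2) hn hX hN1 hN B hB hfree
  obtain ⟨R, hRdef⟩ : ∃ R : ℝ, R = ((n ^ 7 * X ^ 2 : ℕ) : ℝ) := ⟨_, rfl⟩
  have hRe : (n : ℝ) ^ 7 * (X : ℝ) ^ 2 = R := by rw [hRdef]; push_cast; ring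
  rw [← hRdef] at hBcard hmain
  rw [hRe] at hmain
  have hRpos : 1 ≤ R := by rw [hRdef]; exact_mod_cast hR1
  have hX4 : (4 : ℝ) ≤ X := by exact_mod_cast hX
  have hc : (0 : ℝ) ≤ 7 / 12 - 2 / X := by
    have : 2 / (X : ℝ) ≤ 2 / 4 := by
      apply div_le_div_of_nonneg_left (by norm_num) (by norm_num) hX4
    linarith
  obtain ⟨E, hE⟩ : ∃ E : ℝ, E = (N : ℝ) * (7 / 12 - 2 / X) ^ n := ⟨_, rfl⟩
  have hEnn : 0 ≤ E := by rw [hE]; positivity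
  rw [← hE] at hmain ⊢
  obtain ⟨K, hK⟩ : ∃ K : ℝ, K = (m : ℝ) ^ 7 * (Z : ℝ) ^ 2 + 1 := ⟨_, rfl⟩
  have hKpos : 0 < K := by rw [hK]; positivity
  rw [← hK] at hBcard ⊢
  have hrk : (0 : ℝ) ≤ rk 5 N := by positivity
  have hfin : R * (E * (1 / 4 - 1 / Z) ^ m) ≤ R * (12 * ((n : ℝ) + 1) * K * rk 5 N) := by
    calc R * (E * (1 / 4 - 1 / Z) ^ m) = E * (R * (1 / 4 - 1 / Z) ^ m) := by ring
      _ ≤ E * (2 * K * B.card) := mul_le_mul_of_nonneg_left hBcard hEnn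
      _ = 2 * K * (E * B.card) := by ring
      _ ≤ 2 * K * (2 * (((n : ℝ) + 1) * (R + R + 1)) * rk 5 N) := by
          apply mul_le_mul_of_nonneg_left hmain (by positivity)
      _ ≤ 2 * K * (2 * (((n : ℝ) + 1) * (3 * R)) * rk 5 N) := by
          apply mul_le_mul_of_nonneg_left _ (by positivity)
          apply mul_le_mul_of_nonneg_right _ hrk
          apply mul_le_mul_of_nonneg_left _ (by norm_num)
          apply mul_le_mul_of_nonneg_left _ (by positivity)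
          linarith
      _ = R * (12 * ((n : ℝ) + 1) * K * rk 5 N) := by ring
  exact le_of_mul_le_mul_left hfin (by linarith)

end Vale.Agent.P057
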