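import Vale.Agent.P057.Local

namespace Vale.Agent.P057

/-- level one digit set for five-term progressions -/
def InW5 (q : ℕ) (w : ℤ) : Prop :=
  (w % 2 = 0 ∧ -(q : ℤ) < 4 * w ∧ 4 * w < q) ∨ (w % 2 = 1 ∧ -(q : ℤ) < 3 * w ∧ 3 * w < q)

instance (q : ℕ) : DecidablePred (InW5 q) := fun w => by unfold InW5; infer_instance

noncomputable def W5 (q : ℕ) : Finset ℤ := (Finset.Ioo (-(q : ℤ)) q).filter (InW5 q)

theorem mem_W5 {q : ℕ} {w : ℤ} : w ∈ W5 q ↔ InW5 q w := by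
  unfold W5
  rw [Finset.mem_filter, Finset.mem_Ioo]
  constructor
  · exact fun h => h.2
  · intro h
    refine ⟨?_, h⟩
    unfold InW5 at h
    omega

theorem W5_bound {q : ℕ} {w : ℤ} (h : InW5 q w) : -(q : ℤ) < 3 * w ∧ 3 * w < q := by
  unfold InW5 at h
  omega

theorem local5_case_mm {q : ℕ} (hodd : q % 2 = 1) {w0 w1 w2 w3 w4 γ : ℤ}
    (h0 : InW5 q w0) (h1 : InW5 q w1) (h2 : InW5 q w2) (h3 : InW5 q w3) (h4 : InW5 q w4)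
    (hα : w0 - 2 * w1 + w2 = (q : ℤ) * (-1)) (hβ : w1 - 2 * w2 + w3 = (q : ℤ) * (-1))
    (hγ : w2 - 2 * w3 + w4 = (q : ℤ) * γ) (hγ' : γ = -1 ∨ γ = 0 ∨ γ = 1) :
    2 * (w2 % 2) ≤ w0 % 2 + w4 % 2 ∧
      (2 * (w2 % 2) = w0 % 2 + w4 % 2 →
        w0 - 2 * w1 + w2 = 0 ∧ w1 - 2 * w2 + w3 = 0 ∧ w2 - 2 * w3 + w4 = 0) := by
  unfold InW5 at h0 h1 h2 h3 h4
  rcases hγ' with rfl | rfl | rfl <;> omega

theorem local5_case_mz {q : ℕ} (hodd : q % 2 = 1) {w0 w1 w2 w3 w4 γ : ℤ}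
    (h0 : InW5 q w0) (h1 : InW5 q w1) (h2 : InW5 q w2) (h3 : InW5 q w3) (h4 : InW5 q w4)
    (hα : w0 - 2 * w1 + w2 = (q : ℤ) * (-1)) (hβ : w1 - 2 * w2 + w3 = (q : ℤ) * (0))
    (hγ : w2 - 2 * w3 + w4 = (q : ℤ) * γ) (hγ' : γ = -1 ∨ γ = 0 ∨ γ = 1) :
    2 * (w2 % 2) ≤ w0 % 2 + w4 % 2 ∧
      (2 * (w2 % 2) = w0 % 2 + w4 % 2 →
        w0 - 2 * w1 + w2 = 0 ∧ w1 - 2 * w2 + w3 = 0 ∧ w2 - 2 * w3 + w4 = 0) := by
  unfold InW5 at h0 h1 h2 h3 h4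
  rcases hγ' with rfl | rfl | rfl <;> omega

theorem local5_case_mp {q : ℕ} (hodd : q % 2 = 1) {w0 w1 w2 w3 w4 γ : ℤ}
    (h0 : InW5 q w0) (h1 : InW5 q w1) (h2 : InW5 q w2) (h3 : InW5 q w3) (h4 : InW5 q w4)
    (hα : w0 - 2 * w1 + w2 = (q : ℤ) * (-1)) (hβ : w1 - 2 * w2 + w3 = (q : ℤ) * (1))
    (hγ : w2 - 2 * w3 + w4 = (q : ℤ) * γ) (hγ' : γ = -1 ∨ γ = 0 ∨ γ = 1) :
    2 * (w2 % 2) ≤ w0 % 2 + w4 % 2 ∧
      (2 * (w2 % 2) = w0 % 2 + w4 % 2 →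
        w0 - 2 * w1 + w2 = 0 ∧ w1 - 2 * w2 + w3 = 0 ∧ w2 - 2 * w3 + w4 = 0) := by
  unfold InW5 at h0 h1 h2 h3 h4
  rcases hγ' with rfl | rfl | rfl <;> omega

theorem local5_case_zm {q : ℕ} (hodd : q % 2 = 1) {w0 w1 w2 w3 w4 γ : ℤ}
    (h0 : InW5 q w0) (h1 : InW5 q w1) (h2 : InW5 q w2) (h3 : InW5 q w3) (h4 : InW5 q w4)
    (hα : w0 - 2 * w1 + w2 = (q : ℤ) * (0)) (hβ : w1 - 2 * w2 + w3 = (q : ℤ) * (-1))
    (hγ : w2 - 2 * w3 + w4 = (q : ℤ) * γ) (hγ' : γ = -1 ∨ γ = 0 ∨ γ = 1) :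
    2 * (w2 % 2) ≤ w0 % 2 + w4 % 2 ∧
      (2 * (w2 % 2) = w0 % 2 + w4 % 2 →
        w0 - 2 * w1 + w2 = 0 ∧ w1 - 2 * w2 + w3 = 0 ∧ w2 - 2 * w3 + w4 = 0) := by
  unfold InW5 at h0 h1 h2 h3 h4
  rcases hγ' with rfl | rfl | rfl <;> omega

theorem local5_case_zz {q : ℕ} (hodd : q % 2 = 1) {w0 w1 w2 w3 w4 γ : ℤ}
    (h0 : InW5 q w0) (h1 : InW5 q w1) (h2 : InW5 q w2) (h3 : InW5 q w3) (h4 : InW5 q w4)
    (hα : w0 - 2 * w1 + w2 = (q : ℤ) * (0)) (hβ : w1 - 2 * w2 + w3 = (q : ℤ) * (0))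
    (hγ : w2 - 2 * w3 + w4 = (q : ℤ) * γ) (hγ' : γ = -1 ∨ γ = 0 ∨ γ = 1) :
    2 * (w2 % 2) ≤ w0 % 2 + w4 % 2 ∧
      (2 * (w2 % 2) = w0 % 2 + w4 % 2 →
        w0 - 2 * w1 + w2 = 0 ∧ w1 - 2 * w2 + w3 = 0 ∧ w2 - 2 * w3 + w4 = 0) := by
  unfold InW5 at h0 h1 h2 h3 h4
  rcases hγ' with rfl | rfl | rfl <;> omega

theorem local5_case_zp {q : ℕ} (hodd : q % 2 = 1) {w0 w1 w2 w3 w4 γ : ℤ}
    (h0 : InW5 q w0) (h1 : InW5 q w1) (h2 : InW5 q w2) (h3 : InW5 q w3) (h4 : InW5 q w4)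
    (hα : w0 - 2 * w1 + w2 = (q : ℤ) * (0)) (hβ : w1 - 2 * w2 + w3 = (q : ℤ) * (1))
    (hγ : w2 - 2 * w3 + w4 = (q : ℤ) * γ) (hγ' : γ = -1 ∨ γ = 0 ∨ γ = 1) :
    2 * (w2 % 2) ≤ w0 % 2 + w4 % 2 ∧
      (2 * (w2 % 2) = w0 % 2 + w4 % 2 →
        w0 - 2 * w1 + w2 = 0 ∧ w1 - 2 * w2 + w3 = 0 ∧ w2 - 2 * w3 + w4 = 0) := by
  unfold InW5 at h0 h1 h2 h3 h4
  rcases hγ' with rfl | rfl | rfl <;> omega

theorem local5_case_pm {q : ℕ} (hodd : q % 2 = 1) {w0 w1 w2 w3 w4 γ : ℤ}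
    (h0 : InW5 q w0) (h1 : InW5 q w1) (h2 : InW5 q w2) (h3 : InW5 q w3) (h4 : InW5 q w4)
    (hα : w0 - 2 * w1 + w2 = (q : ℤ) * (1)) (hβ : w1 - 2 * w2 + w3 = (q : ℤ) * (-1))
    (hγ : w2 - 2 * w3 + w4 = (q : ℤ) * γ) (hγ' : γ = -1 ∨ γ = 0 ∨ γ = 1) :
    2 * (w2 % 2) ≤ w0 % 2 + w4 % 2 ∧
      (2 * (w2 % 2) = w0 % 2 + w4 % 2 →
        w0 - 2 * w1 + w2 = 0 ∧ w1 - 2 * w2 + w3 = 0 ∧ w2 - 2 * w3 + w4 = 0) := by
  unfold InW5 at h0 h1 h2 h3 h4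
  rcases hγ' with rfl | rfl | rfl <;> omega

theorem local5_case_pz {q : ℕ} (hodd : q % 2 = 1) {w0 w1 w2 w3 w4 γ : ℤ}
    (h0 : InW5 q w0) (h1 : InW5 q w1) (h2 : InW5 q w2) (h3 : InW5 q w3) (h4 : InW5 q w4)
    (hα : w0 - 2 * w1 + w2 = (q : ℤ) * (1)) (hβ : w1 - 2 * w2 + w3 = (q : ℤ) * (0))
    (hγ : w2 - 2 * w3 + w4 = (q : ℤ) * γ) (hγ' : γ = -1 ∨ γ = 0 ∨ γ = 1) :
    2 * (w2 % 2) ≤ w0 % 2 + w4 % 2 ∧
      (2 * (w2 % 2) = w0 % 2 + w4 % 2 →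
        w0 - 2 * w1 + w2 = 0 ∧ w1 - 2 * w2 + w3 = 0 ∧ w2 - 2 * w3 + w4 = 0) := by
  unfold InW5 at h0 h1 h2 h3 h4
  rcases hγ' with rfl | rfl | rfl <;> omega

theorem local5_case_pp {q : ℕ} (hodd : q % 2 = 1) {w0 w1 w2 w3 w4 γ : ℤ}
    (h0 : InW5 q w0) (h1 : InW5 q w1) (h2 : InW5 q w2) (h3 : InW5 q w3) (h4 : InW5 q w4)
    (hα : w0 - 2 * w1 + w2 = (q : ℤ) * (1)) (hβ : w1 - 2 * w2 + w3 = (q : ℤ) * (1))
    (hγ : w2 - 2 * w3 + w4 = (q : ℤ) * γ) (hγ' : γ = -1 ∨ γ = 0 ∨ γ = 1) :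
    2 * (w2 % 2) ≤ w0 % 2 + w4 % 2 ∧
      (2 * (w2 % 2) = w0 % 2 + w4 % 2 →
        w0 - 2 * w1 + w2 = 0 ∧ w1 - 2 * w2 + w3 = 0 ∧ w2 - 2 * w3 + w4 = 0) := by
  unfold InW5 at h0 h1 h2 h3 h4
  rcases hγ' with rfl | rfl | rfl <;> omega

theorem local5_linear {q : ℕ} (hodd : q % 2 = 1) {w0 w1 w2 w3 w4 : ℤ}
    (h0 : InW5 q w0) (h1 : InW5 q w1) (h2 : InW5 q w2) (h3 : InW5 q w3) (h4 : InW5 q w4)
    (ha : (q : ℤ) ∣ w0 - 2 * w1 + w2) (hb : (q : ℤ) ∣ w1 - 2 * w2 + w3)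
    (hc : (q : ℤ) ∣ w2 - 2 * w3 + w4) :
    2 * (w2 % 2) ≤ w0 % 2 + w4 % 2 ∧
      (2 * (w2 % 2) = w0 % 2 + w4 % 2 →
        w0 - 2 * w1 + w2 = 0 ∧ w1 - 2 * w2 + w3 = 0 ∧ w2 - 2 * w3 + w4 = 0) := by
  obtain ⟨α, hα⟩ := ha
  obtain ⟨β, hβ⟩ := hb
  obtain ⟨γ, hγ⟩ := hc
  have hq : 0 < q := by omega
  have b0 := W5_bound h0
  have b1 := W5_bound h1
  have b2 := W5_bound h2
  have b3 := W5_bound h3
  have b4 := W5_bound h4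
  have hα' : α = -1 ∨ α = 0 ∨ α = 1 := alpha_cases hq hα (by omega) (by omega)
  have hβ' : β = -1 ∨ β = 0 ∨ β = 1 := alpha_cases hq hβ (by omega) (by omega)
  have hγ' : γ = -1 ∨ γ = 0 ∨ γ = 1 := alpha_cases hq hγ (by omega) (by omega)
  rcases hα' with rfl | rfl | rfl <;> rcases hβ' with rfl | rfl | rfl
  · exact local5_case_mm hodd h0 h1 h2 h3 h4 hα hβ hγ hγ'
  · exact local5_case_mz hodd h0 h1 h2 h3 h4 hα hβ hγ hγ'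
  · exact local5_case_mp hodd h0 h1 h2 h3 h4 hα hβ hγ hγ'
  · exact local5_case_zm hodd h0 h1 h2 h3 h4 hα hβ hγ hγ'
  · exact local5_case_zz hodd h0 h1 h2 h3 h4 hα hβ hγ hγ'
  · exact local5_case_zp hodd h0 h1 h2 h3 h4 hα hβ hγ hγ'
  · exact local5_case_pm hodd h0 h1 h2 h3 h4 hα hβ hγ hγ'
  · exact local5_case_pz hodd h0 h1 h2 h3 h4 hα hβ hγ hγ'
  · exact local5_case_pp hodd h0 h1 h2 h3 h4 hα hβ hγ hγ'

theorem W5_inj {q : ℕ} {w w' : ℤ} (h : InW5 q w) (h' : InW5 q w') (hd : (q : ℤ) ∣ w - w') :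
    w = w' := by
  obtain ⟨α, hα⟩ := hd
  unfold InW5 at h h'
  have hq : 0 < q := by omega
  have hα' : α = -1 ∨ α = 0 ∨ α = 1 := alpha_cases hq hα (by omega) (by omega)
  rcases hα' with rfl | rfl | rfl <;> omega

theorem W5_sq_le {q : ℕ} {w : ℤ} (h : InW5 q w) : w ^ 2 ≤ (q : ℤ) ^ 2 := by
  unfold InW5 at h
  have h1 : -(q : ℤ) ≤ w := by omega
  have h2 : w ≤ q := by omega
  nlinarith

theorem card_W5_ge (q : ℕ) : 7 * q ≤ 12 * (W5 q).card + 24 := by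
  rcases Nat.eq_zero_or_pos q with rfl | hq
  · simp
  set m : ℤ := ((q : ℤ) - 1) / 8 with hm
  set m' : ℤ := ((q : ℤ) + 2) / 6 with hm'
  have hsub : (Finset.Icc (-m) m).image (fun v => 2 * v) ∪
      (Finset.Icc (-m') (m' - 1)).image (fun v => 2 * v + 1) ⊆ W5 q := by
    intro w hw
    rw [mem_W5]
    unfold InW5
    rcases Finset.mem_union.mp hw with hw | hw
    · obtain ⟨v, hv, rfl⟩ := Finset.mem_image.mp hw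
      rw [Finset.mem_Icc] at hv
      left
      omega
    · obtain ⟨v, hv, rfl⟩ := Finset.mem_image.mp hw
      rw [Finset.mem_Icc] at hv
      right
      omega
  have hdisj : Disjoint ((Finset.Icc (-m) m).image (fun v => 2 * v))
      ((Finset.Icc (-m') (m' - 1)).image (fun v => 2 * v + 1)) := by
    rw [Finset.disjoint_left]
    intro w hw hw'
    obtain ⟨v, -, rfl⟩ := Finset.mem_image.mp hw
    obtain ⟨v', -, hv'⟩ := Finset.mem_image.mp hw'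
    omega
  have hcard := Finset.card_le_card hsub
  rw [Finset.card_union_of_disjoint hdisj,
    Finset.card_image_of_injective _ (fun a b h => by simpa using h),
    Finset.card_image_of_injective _ (fun a b h => by simpa using h),
    Int.card_Icc, Int.card_Icc] at hcard
  omega

/-- level two digit set: `8 |w| < q` -/
def InW2 (q : ℕ) (w : ℤ) : Prop := -(q : ℤ) < 8 * w ∧ 8 * w < q

instance (q : ℕ) : DecidablePred (InW2 q) := fun w => by unfold InW2; infer_instance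

noncomputable def W2 (q : ℕ) : Finset ℤ := (Finset.Ioo (-(q : ℤ)) q).filter (InW2 q)

theorem mem_W2 {q : ℕ} {w : ℤ} : w ∈ W2 q ↔ InW2 q w := by
  unfold W2
  rw [Finset.mem_filter, Finset.mem_Ioo]
  constructor
  · exact fun h => h.2
  · intro h
    refine ⟨?_, h⟩
    unfold InW2 at h
    omega

theorem zero_of_dvd_of_lt {q : ℕ} {x : ℤ} (hd : (q : ℤ) ∣ x) (h1 : -(q : ℤ) < x) (h2 : x < q) :
    x = 0 := by
  apply Int.eq_zero_of_abs_lt_dvd hd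
  rw [abs_lt]
  exact ⟨h1, h2⟩

theorem local2_linear {q : ℕ} {w0 w1 w2 w3 : ℤ}
    (h0 : InW2 q w0) (h1 : InW2 q w1) (h2 : InW2 q w2) (h3 : InW2 q w3)
    (ha : (q : ℤ) ∣ w0 - 3 * w1 + 3 * w2 - w3) : w0 - 3 * w1 + 3 * w2 - w3 = 0 := by
  unfold InW2 at h0 h1 h2 h3
  exact zero_of_dvd_of_lt ha (by omega) (by omega)

theorem W2_inj {q : ℕ} {w w' : ℤ} (h : InW2 q w) (h' : InW2 q w') (hd : (q : ℤ) ∣ w - w') :
    w = w' := by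
  unfold InW2 at h h'
  have := zero_of_dvd_of_lt hd (by omega) (by omega)
  omega

theorem W2_sq_le {q : ℕ} {w : ℤ} (h : InW2 q w) : w ^ 2 ≤ (q : ℤ) ^ 2 := by
  unfold InW2 at h
  have h1 : -(q : ℤ) ≤ w := by omega
  have h2 : w ≤ q := by omega
  nlinarith

theorem card_W2_ge (q : ℕ) : q ≤ 4 * (W2 q).card + 4 := by
  rcases Nat.eq_zero_or_pos q with rfl | hq
  · simp
  set m : ℤ := ((q : ℤ) - 1) / 8 with hm
  have hsub : Finset.Icc (-m) m ⊆ W2 q := by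
    intro w hw
    rw [mem_W2]
    unfold InW2
    rw [Finset.mem_Icc] at hw
    omega
  have hcard := Finset.card_le_card hsub
  rw [Int.card_Icc] at hcard
  omega

/-- fourth difference of squares along a sequence with vanishing third differences -/
theorem quartic_id {w0 w1 w2 w3 w4 : ℤ} (ha : w0 - 3 * w1 + 3 * w2 - w3 = 0)
    (hb : w1 - 3 * w2 + 3 * w3 - w4 = 0) :
    w0 ^ 2 - 4 * w1 ^ 2 + 6 * w2 ^ 2 - 4 * w3 ^ 2 + w4 ^ 2 = 6 * (w0 - 2 * w1 + w2) ^ 2 := by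
  have e3 : w3 = w0 - 3 * w1 + 3 * w2 := by linarith
  have e4 : w4 = w1 - 3 * w2 + 3 * w3 := by linarith
  subst e4
  subst e3
  ring

end Vale.Agent.P057
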