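import Vale.Agent.P057.PolyAux
import Vale.Agent.P057.Local5

namespace Vale.Agent.P057

open Finset

/-- digit set for degree `D`: `2 ^ (D + 1) * |w| < q` -/
def InWD (D q : ℕ) (w : ℤ) : Prop := -(q : ℤ) < 2 ^ (D + 1) * w ∧ 2 ^ (D + 1) * w < q

instance (D q : ℕ) : DecidablePred (InWD D q) := fun w => by unfold InWD; infer_instance

noncomputable def WD (D q : ℕ) : Finset ℤ := (Finset.Ioo (-(q : ℤ)) q).filter (InWD D q)

theorem two_le_pow (D : ℕ) : (2 : ℤ) ≤ 2 ^ (D + 1) := by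
  have : (1 : ℤ) ≤ 2 ^ D := one_le_pow₀ (by norm_num)
  rw [pow_succ]
  linarith

theorem InWD_bound {D q : ℕ} {w : ℤ} (h : InWD D q w) : -(q : ℤ) < 2 * w ∧ 2 * w < q := by
  obtain ⟨h1, h2⟩ := h
  have hM := two_le_pow D
  have hq : (0 : ℤ) ≤ q := by positivity
  constructor
  · by_contra hc
    have hc' : 2 * w ≤ -(q : ℤ) := not_lt.mp hc
    have hw : w ≤ 0 := by linarith
    nlinarith
  · by_contra hc
    have hc' : (q : ℤ) ≤ 2 * w := not_lt.mp hc
    have hw : 0 ≤ w := by linarith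
    nlinarith

theorem mem_WD {D q : ℕ} {w : ℤ} : w ∈ WD D q ↔ InWD D q w := by
  unfold WD
  rw [Finset.mem_filter, Finset.mem_Ioo]
  constructor
  · exact fun h => h.2
  · intro h
    refine ⟨?_, h⟩
    have := InWD_bound h
    omega

theorem WD_inj {D q : ℕ} {w w' : ℤ} (h : InWD D q w) (h' : InWD D q w') (hd : (q : ℤ) ∣ w - w') :
    w = w' := by
  have b := InWD_bound h
  have b' := InWD_bound h'
  have := zero_of_dvd_of_lt hd (by omega) (by omega)
  omega

theorem WD_sq_le {D q : ℕ} {w : ℤ} (h : InWD D q w) : w ^ 2 ≤ (q : ℤ) ^ 2 := by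
  have b := InWD_bound h
  have h1 : -(q : ℤ) ≤ w := by omega
  have h2 : w ≤ q := by omega
  nlinarith

theorem card_WD_ge (D q : ℕ) : q ≤ 2 ^ D * ((WD D q).card + 1) := by
  rcases Nat.eq_zero_or_pos q with rfl | hq
  · simp
  have hM := two_le_pow D
  have hMpos : (0 : ℤ) < 2 ^ (D + 1) := by linarith
  set m : ℤ := ((q : ℤ) - 1) / 2 ^ (D + 1) with hm
  have hm0 : 0 ≤ m := Int.ediv_nonneg (by omega) hMpos.le
  have hm1 : m * 2 ^ (D + 1) ≤ (q : ℤ) - 1 := Int.ediv_mul_le _ hMpos.ne'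
  have hm2 : (q : ℤ) - 1 < (m + 1) * 2 ^ (D + 1) := Int.lt_ediv_add_one_mul_self _ hMpos
  have hsub : Finset.Icc (-m) m ⊆ WD D q := by
    intro w hw
    rw [mem_WD]
    rw [Finset.mem_Icc] at hw
    constructor
    · nlinarith [hw.1, hw.2]
    · nlinarith [hw.1, hw.2]
  have hcard := Finset.card_le_card hsub
  rw [Int.card_Icc] at hcard
  have h3 : (2 * m + 1 : ℤ) ≤ (WD D q).card := by
    have : (m + 1 - -m).toNat = (2 * m + 1).toNat := by congr 1; ring
    rw [this] at hcard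
    have h4 : ((2 * m + 1).toNat : ℤ) = 2 * m + 1 := Int.toNat_of_nonneg (by linarith)
    have h5 : (((2 * m + 1).toNat : ℕ) : ℤ) ≤ ((WD D q).card : ℤ) := by exact_mod_cast hcard
    linarith
  have h6 : (q : ℤ) ≤ 2 ^ D * (((WD D q).card : ℤ) + 1) := by
    have e : (2 : ℤ) ^ (D + 1) = 2 ^ D * 2 := pow_succ _ _
    rw [e] at hm2
    have hp : (0 : ℤ) < 2 ^ D := by positivity
    nlinarith
  exact_mod_cast h6

theorem abs_alt_le (n : ℕ) (f : ℕ → ℤ) (j : ℕ) :
    |alt n f j| ≤ ∑ l ∈ range (n + 1), (n.choose l : ℤ) * |f (j + l)| := by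
  unfold alt
  refine (Finset.abs_sum_le_sum_abs _ _).trans (le_of_eq ?_)
  apply Finset.sum_congr rfl
  intro l _
  rw [abs_mul, abs_mul, abs_pow, abs_neg, abs_one, one_pow, one_mul, Nat.abs_cast]

theorem WD_lin {D q : ℕ} (f : ℕ → ℤ) (j : ℕ) (hf : ∀ l ≤ D + 1, InWD D q (f (j + l)))
    (hd : (q : ℤ) ∣ alt (D + 1) f j) : alt (D + 1) f j = 0 := by
  have hM := two_le_pow D
  have hMpos : (0 : ℤ) < 2 ^ (D + 1) := by linarith
  have h1 := abs_alt_le (D + 1) f j
  have h2 : 2 ^ (D + 1) * ∑ l ∈ range (D + 1 + 1), ((D + 1).choose l : ℤ) * |f (j + l)| ≤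
      ∑ l ∈ range (D + 1 + 1), ((D + 1).choose l : ℤ) * ((q : ℤ) - 1) := by
    rw [Finset.mul_sum]
    apply Finset.sum_le_sum
    intro l hl
    obtain ⟨a1, a2⟩ := hf l (by have := Finset.mem_range.mp hl; omega)
    have h3 : 2 ^ (D + 1) * |f (j + l)| ≤ (q : ℤ) - 1 := by
      have : 2 ^ (D + 1) * |f (j + l)| = |2 ^ (D + 1) * f (j + l)| := by
        rw [abs_mul, abs_of_pos hMpos]
      rw [this, abs_le]
      constructor <;> linarith
    have h4 : (0 : ℤ) ≤ ((D + 1).choose l : ℤ) := by positivity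
    calc 2 ^ (D + 1) * (((D + 1).choose l : ℤ) * |f (j + l)|)
        = ((D + 1).choose l : ℤ) * (2 ^ (D + 1) * |f (j + l)|) := by ring
      _ ≤ ((D + 1).choose l : ℤ) * ((q : ℤ) - 1) := mul_le_mul_of_nonneg_left h3 h4
  have h5 : ∑ l ∈ range (D + 1 + 1), ((D + 1).choose l : ℤ) * ((q : ℤ) - 1) =
      2 ^ (D + 1) * ((q : ℤ) - 1) := by
    rw [← Finset.sum_mul]
    congr 1
    exact_mod_cast Nat.sum_range_choose (D + 1)
  rw [h5] at h2
  have h6 : ∑ l ∈ range (D + 1 + 1), ((D + 1).choose l : ℤ) * |f (j + l)| ≤ (q : ℤ) - 1 :=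
    le_of_mul_le_mul_left h2 hMpos
  apply Int.eq_zero_of_abs_lt_dvd hd
  linarith

theorem alt_two (f : ℕ → ℤ) (j : ℕ) : alt 2 f j = f j - 2 * f (j + 1) + f (j + 2) := by
  simp [alt, Finset.sum_range_succ]
  ring

/-- linearisation for the first level digit set, windows of five consecutive terms -/
theorem W5_lin {ι : Type*} [Fintype ι] (k : ℕ) (hk : 5 ≤ k) (s : ι → ℕ) (hodd : ∀ i, s i % 2 = 1)
    (u : ℕ → ι → ℤ) (hu : ∀ j < k, ∀ i, InW5 (s i) (u j i))
    (hτ : ∀ j < k, ∑ i, (u j i) % 2 = ∑ i, (u 0 i) % 2)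
    (hd : ∀ i j, j + 1 + 1 < k → (s i : ℤ) ∣ alt (1 + 1) (fun l => u l i) j) :
    ∀ i j, j + 1 + 1 < k → alt (1 + 1) (fun l => u l i) j = 0 := by
  have hwin : ∀ a, a + 4 < k → ∀ i, u a i - 2 * u (a + 1) i + u (a + 2) i = 0 ∧
      u (a + 1) i - 2 * u (a + 2) i + u (a + 3) i = 0 ∧
      u (a + 2) i - 2 * u (a + 3) i + u (a + 4) i = 0 := by
    intro a ha
    have hlin := fun i => local5_linear (hodd i) (hu a (by omega) i) (hu (a + 1) (by omega) i)
      (hu (a + 2) (by omega) i) (hu (a + 3) (by omega) i) (hu (a + 4) (by omega) i)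
      (by have := hd i a (by omega); rwa [alt_two] at this)
      (by have := hd i (a + 1) (by omega); rwa [alt_two] at this)
      (by have := hd i (a + 2) (by omega); rwa [alt_two] at this)
    have hsum1 : ∑ i, (u a i % 2 + u (a + 4) i % 2 - 2 * (u (a + 2) i % 2)) = 0 := by
      simp only [Finset.sum_sub_distrib, Finset.sum_add_distrib, ← Finset.mul_sum]
      rw [hτ a (by omega), hτ (a + 4) (by omega), hτ (a + 2) (by omega)]; ring
    have hz1 := (Finset.sum_eq_zero_iff_of_nonneg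
      (fun i _ => by have := (hlin i).1; omega)).mp hsum1
    exact fun i => (hlin i).2 (by have := hz1 i (Finset.mem_univ i); omega)
  intro i j hj
  show alt 2 (fun l => u l i) j = 0
  rw [alt_two]
  by_cases h1 : j + 4 < k
  · exact (hwin j h1 i).1
  · by_cases h2 : j + 3 < k
    · obtain ⟨a, rfl⟩ : ∃ a, j = a + 1 := ⟨j - 1, by omega⟩
      exact (hwin a (by omega) i).2.1
    · obtain ⟨a, rfl⟩ : ∃ a, j = a + 2 := ⟨j - 2, by omega⟩
      exact (hwin a (by omega) i).2.2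

end Vale.Agent.P057
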