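import Vale.Agent.P057.LevelG
import Vale.Agent.P057.DigitsG
import Vale.Agent.P057.Combine5

namespace Vale.Agent.P057

open Finset

/-- the finite inequality provided by one level of the construction -/
def StepH (P' P : Finset ℕ → Prop) (ρ b : ℝ) (X₀ : ℕ) : Prop :=
  ∀ d X N R : ℕ, 6 ≤ d → X₀ ≤ X → 1 ≤ N → N ≤ X ^ d → ∀ B : Finset ℕ, B ⊆ Finset.Icc 1 R → P' B →
    ∃ A : Finset ℕ, A ⊆ Finset.Icc 1 N ∧ P A ∧
      (N : ℝ) * (ρ - b / X) ^ d * B.card ≤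
        2 * (((d : ℝ) + 1) * ((d : ℝ) ^ 7 * (X : ℝ) ^ 2 + R + 1)) * A.card

theorem stepH_of_level (P' P : Finset ℕ → Prop)
    (hshift : ∀ (A A' : Finset ℕ) (c : ℕ), P A → (∀ x ∈ A', x + c ∈ A) → P A')
    (Wf : ℕ → Finset ℤ) (ρ b : ℝ) (X₀ : ℕ) (hX₀ : 2 ≤ X₀)
    (hρ : ∀ X : ℕ, X₀ ≤ X → 0 ≤ ρ - b / X) (hb : 0 ≤ b)
    (hcard : ∀ q : ℕ, ρ * (q : ℝ) - b ≤ (Wf q).card)
    (hlevel : ∀ (d : ℕ) (s : Fin d → ℕ), (∀ i, s i % 2 = 1) →
      Pairwise (Function.onFun Nat.Coprime s) → ∀ (R : ℕ) (B : Finset ℕ), B ⊆ Finset.Icc 1 R → P' B →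
      ∃ A : Finset ℕ, A ⊆ Finset.Icc 1 (∏ i, s i) ∧ P A ∧
        (∏ i, (Wf (s i)).card) * B.card ≤ A.card * ((d + 1) * (∑ i, (s i) ^ 2 + R + 1))) :
    StepH P' P ρ b X₀ := by
  intro d X N R hd hX hN1 hN B hB hfree
  obtain ⟨s, hodd, hco, hs⟩ := moduli d X hd (by omega)
  obtain ⟨A1, hA1, hPA1, hAcard⟩ := hlevel d s hodd hco R B hB hfree
  have hN2 : X ^ d ≤ ∏ i, s i := pow_le_prod s X (fun i => (hs i).1)
  obtain ⟨A, hA, hPA, hblock⟩ := block_general P hshift hN1 (hN.trans hN2) hA1 hPA1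
  refine ⟨A, hA, hPA, ?_⟩
  have hc := hρ X hX
  have h2 := prod_card_ge s (fun i => (Wf (s i)).card) ρ b X (by omega) hc hb
    (fun i => (hs i).1) (fun i => hcard (s i))
  have h3 : ((∑ i, (s i) ^ 2 : ℕ) : ℝ) ≤ (d : ℝ) ^ 7 * (X : ℝ) ^ 2 := by
    exact_mod_cast sum_sq_le s X (fun i => (hs i).2)
  have hAcard' : ((∏ i, (Wf (s i)).card : ℕ) : ℝ) * B.card ≤
      (A1.card : ℝ) * (((d : ℝ) + 1) * (((∑ i, (s i) ^ 2 : ℕ) : ℝ) + R + 1)) := by
    exact_mod_cast hAcard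
  have hblock' : (A1.card : ℝ) * N ≤ 2 * ((∏ i, s i : ℕ) : ℝ) * A.card := by exact_mod_cast hblock
  obtain ⟨N1, hN1def⟩ : ∃ N1 : ℝ, N1 = ((∏ i, s i : ℕ) : ℝ) := ⟨_, rfl⟩
  rw [← hN1def] at h2 hblock'
  have hN1pos : 0 < N1 := by
    have : 0 < ∏ i, s i := lt_of_lt_of_le (Nat.pow_pos (by omega)) hN2
    rw [hN1def]
    exact_mod_cast this
  have hfin : N1 * ((N : ℝ) * (ρ - b / X) ^ d * B.card) ≤
      N1 * (2 * (((d : ℝ) + 1) * ((d : ℝ) ^ 7 * (X : ℝ) ^ 2 + R + 1)) * A.card) := by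
    calc N1 * ((N : ℝ) * (ρ - b / X) ^ d * B.card)
        = (N : ℝ) * ((N1 * (ρ - b / X) ^ d) * B.card) := by ring
      _ ≤ (N : ℝ) * (((∏ i, (Wf (s i)).card : ℕ) : ℝ) * B.card) := by
          apply mul_le_mul_of_nonneg_left _ (by positivity)
          apply mul_le_mul_of_nonneg_right h2 (by positivity)
      _ ≤ (N : ℝ) * ((A1.card : ℝ) * (((d : ℝ) + 1) * (((∑ i, (s i) ^ 2 : ℕ) : ℝ) + R + 1))) := by
          apply mul_le_mul_of_nonneg_left hAcard' (by positivity)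
      _ = ((A1.card : ℝ) * N) * (((d : ℝ) + 1) * (((∑ i, (s i) ^ 2 : ℕ) : ℝ) + R + 1)) := by ring
      _ ≤ (2 * N1 * A.card) * (((d : ℝ) + 1) * (((∑ i, (s i) ^ 2 : ℕ) : ℝ) + R + 1)) := by
          apply mul_le_mul_of_nonneg_right hblock' (by positivity)
      _ ≤ (2 * N1 * A.card) * (((d : ℝ) + 1) * ((d : ℝ) ^ 7 * (X : ℝ) ^ 2 + R + 1)) := by
          apply mul_le_mul_of_nonneg_left _ (by positivity)
          apply mul_le_mul_of_nonneg_left _ (by positivity)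
          linarith
      _ = N1 * (2 * (((d : ℝ) + 1) * ((d : ℝ) ^ 7 * (X : ℝ) ^ 2 + R + 1)) * A.card) := by ring
  exact le_of_mul_le_mul_left hfin hN1pos

/-- the step from degree `2 D` to degree `D` -/
theorem stepH_D (k D : ℕ) (hk : 2 * D + 1 ≤ k) :
    StepH (FreeD k (2 * D)) (FreeD k D) (1 / 2 ^ D) 1 (2 ^ (D + 1)) := by
  apply stepH_of_level _ _ (FreeD_shift k D) (WD D)
  · have : 1 ≤ 2 ^ D := Nat.one_le_two_pow
    rw [pow_succ]; omega
  · intro X hX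
    have h1 : (2 : ℝ) ^ D ≤ X := by
      have : 2 ^ D ≤ X := le_trans (Nat.pow_le_pow_right (by norm_num) (by omega)) hX
      exact_mod_cast this
    have h2 : (0 : ℝ) < 2 ^ D := by positivity
    have : 1 / (X : ℝ) ≤ 1 / 2 ^ D := div_le_div_of_nonneg_left (by norm_num) h2 h1
    linarith
  · norm_num
  · intro q
    have h1 : ((q : ℕ) : ℝ) ≤ 2 ^ D * (((WD D q).card : ℝ) + 1) := by exact_mod_cast card_WD_ge D q
    have h2 : (0 : ℝ) < 2 ^ D := by positivity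
    have h3 : 1 / 2 ^ D * (q : ℝ) ≤ ((WD D q).card : ℝ) + 1 := by
      rw [div_mul_eq_mul_div, one_mul, div_le_iff₀ h2]
      linarith
    linarith
  · intro d s hodd hco R B hB hfree
    have hs : ∀ i, s i ≠ 0 := fun i => by have := hodd i; omega
    have := level_general k D hk s hs hco (fun i => WD D (s i)) (fun _ => 0)
      (fun _ => ⟨le_refl _, by norm_num⟩)
      (fun i w hw w' hw' h => WD_inj (mem_WD.mp hw) (mem_WD.mp hw') h)
      (fun i w hw => WD_sq_le (mem_WD.mp hw))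
      (fun u hu _ hd i j hj => WD_lin (fun l => u l i) j
        (fun l hl => mem_WD.mp (hu (j + l) (by omega) i)) (hd i j hj))
      R B hB hfree
    simpa using this

theorem noAP_shift (k : ℕ) (A A' : Finset ℕ) (c : ℕ) (hA : ¬ HasAP k A)
    (h : ∀ x ∈ A', x + c ∈ A) : ¬ HasAP k A' := by
  rintro ⟨a, d, hd, hap⟩
  exact hA ⟨a + c, d, hd, fun i hi => by
    have := h _ (hap i hi)
    have e : a + c + i * d = a + i * d + c := by ring
    rwa [e]⟩

/-- the first level, with the denser digit set -/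
theorem stepH_one (k : ℕ) (hk : 5 ≤ k) :
    StepH (FreeD k 2) (fun A => ¬ HasAP k A) (7 / 12) 2 4 := by
  apply stepH_of_level _ _ (noAP_shift k) W5
  · norm_num
  · intro X hX
    have hX4 : (4 : ℝ) ≤ X := by exact_mod_cast hX
    have : 2 / (X : ℝ) ≤ 2 / 4 := div_le_div_of_nonneg_left (by norm_num) (by norm_num) hX4
    linarith
  · norm_num
  · intro q
    have : 7 * ((q : ℕ) : ℝ) ≤ 12 * ((W5 q).card : ℝ) + 24 := by exact_mod_cast card_W5_ge q
    linarith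
  · intro d s hodd hco R B hB hfree
    have hs : ∀ i, s i ≠ 0 := fun i => by have := hodd i; omega
    obtain ⟨A, hA, hfreeA, hcard⟩ := level_general k 1 (by omega) s hs hco (fun i => W5 (s i))
      (fun w => w % 2) (fun w => by constructor <;> omega)
      (fun i w hw w' hw' h => W5_inj (mem_W5.mp hw) (mem_W5.mp hw') h)
      (fun i w hw => W5_sq_le (mem_W5.mp hw))
      (fun u hu hτ hd => W5_lin k hk s hodd u (fun j hj i => mem_W5.mp (hu j hj i)) hτ hd)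
      R B hB hfree
    exact ⟨A, hA, not_hasAP_of_FreeD (by omega) hfreeA, by simpa using hcard⟩

end Vale.Agent.P057
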