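import Mathlib

namespace Vale.Agent.P057

/-- membership predicate of the digit set -/
def InW (q : ℕ) (w : ℤ) : Prop :=
  (w % 2 = 0 ∧ -(q : ℤ) < 3 * w ∧ 3 * w < q) ∨ (w % 2 = 1 ∧ -(2 * (q : ℤ)) < 9 * w ∧ 9 * w < 2 * q)

instance (q : ℕ) : DecidablePred (InW q) := fun w => by unfold InW; infer_instance

/-- the digit set: even `w` with `3|w| < q` and odd `w` with `9|w| < 2q` -/
noncomputable def W (q : ℕ) : Finset ℤ := (Finset.Ioo (-(q : ℤ)) q).filter (InW q)

theorem mem_W {q : ℕ} {w : ℤ} : w ∈ W q ↔ InW q w := by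
  unfold W
  rw [Finset.mem_filter, Finset.mem_Ioo]
  constructor
  · exact fun h => h.2
  · intro h
    refine ⟨?_, h⟩
    unfold InW at h
    omega

theorem alpha_cases {q : ℕ} {x α : ℤ} (hq : 0 < q) (h : x = q * α) (h1 : -(2 * (q : ℤ)) < x)
    (h2 : x < 2 * q) : α = -1 ∨ α = 0 ∨ α = 1 := by
  have hq' : (0 : ℤ) < q := by exact_mod_cast hq
  have h3 : α < 2 := by
    by_contra hc
    have hc' : 2 ≤ α := not_lt.mp hc
    nlinarith
  have h4 : -2 < α := by
    by_contra hc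
    have hc' : α ≤ -2 := not_lt.mp hc
    nlinarith
  omega

/-- linear part of the local lemma -/
theorem local_linear {q : ℕ} (hodd : q % 2 = 1) {w0 w1 w2 w3 : ℤ}
    (h0 : InW q w0) (h1 : InW q w1) (h2 : InW q w2) (h3 : InW q w3)
    (ha : (q : ℤ) ∣ w0 - 2 * w1 + w2) (hb : (q : ℤ) ∣ w1 - 2 * w2 + w3) :
    w1 % 2 + w2 % 2 ≤ w0 % 2 + w3 % 2 ∧
      (w1 % 2 + w2 % 2 = w0 % 2 + w3 % 2 → w0 - 2 * w1 + w2 = 0 ∧ w1 - 2 * w2 + w3 = 0) := by
  obtain ⟨α, hα⟩ := ha
  obtain ⟨β, hβ⟩ := hb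
  have hq : 0 < q := by omega
  unfold InW at h0 h1 h2 h3
  have hα' : α = -1 ∨ α = 0 ∨ α = 1 := alpha_cases hq hα (by omega) (by omega)
  have hβ' : β = -1 ∨ β = 0 ∨ β = 1 := alpha_cases hq hβ (by omega) (by omega)
  rcases hα' with rfl | rfl | rfl <;> rcases hβ' with rfl | rfl | rfl <;> omega

/-- quadratic part: a genuine integer progression -/
theorem local_quad {w0 w1 w2 w3 : ℤ} (ha : w0 - 2 * w1 + w2 = 0) (hb : w1 - 2 * w2 + w3 = 0) :
    w1 ^ 2 + w2 ^ 2 ≤ w0 ^ 2 + w3 ^ 2 ∧ (w1 ^ 2 + w2 ^ 2 = w0 ^ 2 + w3 ^ 2 → w0 = w1) := by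
  have e2 : w2 = 2 * w1 - w0 := by linarith
  have e3 : w3 = 3 * w1 - 2 * w0 := by linarith
  subst e2 e3
  constructor
  · nlinarith [sq_nonneg (w1 - w0)]
  · intro h
    have : (w1 - w0) ^ 2 = 0 := by nlinarith
    have := pow_eq_zero_iff (two_ne_zero) |>.mp this
    linarith

theorem W_inj {q : ℕ} {w w' : ℤ} (h : InW q w) (h' : InW q w') (hd : (q : ℤ) ∣ w - w') : w = w' := by
  obtain ⟨α, hα⟩ := hd
  unfold InW at h h'
  have hq : 0 < q := by omega
  have hα' : α = -1 ∨ α = 0 ∨ α = 1 := alpha_cases hq hα (by omega) (by omega)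
  rcases hα' with rfl | rfl | rfl <;> omega

theorem W_sq_le {q : ℕ} {w : ℤ} (h : InW q w) : w ^ 2 ≤ (q : ℤ) ^ 2 := by
  unfold InW at h
  have h1 : -(q : ℤ) ≤ w := by omega
  have h2 : w ≤ q := by omega
  nlinarith

theorem card_W_ge (q : ℕ) : 5 * q ≤ 9 * (W q).card + 18 := by
  rcases Nat.eq_zero_or_pos q with rfl | hq
  · simp
  set m : ℤ := ((q : ℤ) - 1) / 6 with hm
  set m' : ℤ := ((q : ℤ) + 4) / 9 with hm'
  have hsub : (Finset.Icc (-m) m).image (fun v => 2 * v) ∪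
      (Finset.Icc (-m') (m' - 1)).image (fun v => 2 * v + 1) ⊆ W q := by
    intro w hw
    rw [mem_W]
    unfold InW
    rcases Finset.mem_union.mp hw with hw | hw
    · obtain ⟨v, hv, rfl⟩ := Finset.mem_image.mp hw
      rw [Finset.mem_Icc] at hv
      left
      omega
    · obtain ⟨v, hv, rfl⟩ := Finset.mem_image.mp hw
      rw [Finset.mem_Icc] at hv
      right
      omega
  have hdisj : Disjoint ((Finset.Icc (-m) m).image (fun v => 2 * v))
      ((Finset.Icc (-m') (m' - 1)).image (fun v => 2 * v + 1)) := by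
    rw [Finset.disjoint_left]
    intro w hw hw'
    obtain ⟨v, -, rfl⟩ := Finset.mem_image.mp hw
    obtain ⟨v', -, hv'⟩ := Finset.mem_image.mp hw'
    omega
  have hcard := Finset.card_le_card hsub
  rw [Finset.card_union_of_disjoint hdisj,
    Finset.card_image_of_injective _ (fun a b h => by simpa using h),
    Finset.card_image_of_injective _ (fun a b h => by simpa using h),
    Int.card_Icc, Int.card_Icc] at hcard
  omega

end Vale.Agent.P057
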