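import Vale.Agent.P057.Defs
import Vale.Agent.P057.Local

namespace Vale.Agent.P057

open Finset

theorem crt_int {ι : Type*} [Fintype ι] [DecidableEq ι] (s : ι → ℕ) (hs : ∀ i, s i ≠ 0)
    (hco : Pairwise (Function.onFun Nat.Coprime s)) (w : ι → ℤ) :
    ∃ x : ℕ, x < ∏ i, s i ∧ ∀ i, (s i : ℤ) ∣ (x : ℤ) - w i := by
  have pp : Set.Pairwise (↑(Finset.univ : Finset ι)) (Function.onFun Nat.Coprime s) :=
    fun i _ j _ hij => hco hij
  let a : ι → ℕ := fun i => (w i % s i).toNat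
  refine ⟨Nat.chineseRemainderOfFinset a s Finset.univ (fun i _ => hs i) pp,
    Nat.chineseRemainderOfFinset_lt_prod a s (fun i _ => hs i) pp, fun i => ?_⟩
  have h := (Nat.chineseRemainderOfFinset a s Finset.univ (fun i _ => hs i) pp).2 i (Finset.mem_univ i)
  have h2 := (Int.natCast_modEq_iff).mpr h
  have hsi : (0 : ℤ) < s i := by exact_mod_cast Nat.pos_of_ne_zero (hs i)
  have ha : ((a i : ℕ) : ℤ) = w i % s i := Int.toNat_of_nonneg (Int.emod_nonneg _ hsi.ne')
  rw [ha] at h2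
  have h3 : (w i % s i) ≡ w i [ZMOD s i] := Int.mod_modEq _ _
  exact (Int.modEq_iff_dvd.mp (h2.trans h3).symm)

theorem exists_AP4free {ι : Type*} [Fintype ι] [DecidableEq ι] (s : ι → ℕ)
    (hodd : ∀ i, s i % 2 = 1) (hco : Pairwise (Function.onFun Nat.Coprime s)) :
    ∃ A : Finset ℕ, A ⊆ Finset.Icc 1 (∏ i, s i) ∧ ¬ HasAP 4 A ∧
      ∏ i, (W (s i)).card ≤ A.card * ((Fintype.card ι + 1) * (∑ i, (s i) ^ 2 + 1)) := by
  classical
  have hs : ∀ i, s i ≠ 0 := fun i => by have := hodd i; omega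
  choose Φ hΦlt hΦdvd using crt_int s hs hco
  set S : Finset (ι → ℤ) := Fintype.piFinset (fun i => W (s i)) with hS
  have hSmem : ∀ w ∈ S, ∀ i, InW (s i) (w i) := fun w hw i =>
    mem_W.mp (Fintype.mem_piFinset.mp hw i)
  let key : (ι → ℤ) → ℤ × ℤ := fun w => (∑ i, w i % 2, ∑ i, (w i) ^ 2)
  set T : Finset (ℤ × ℤ) :=
    Finset.Icc (0 : ℤ) (Fintype.card ι) ×ˢ Finset.Icc (0 : ℤ) (∑ i, (s i : ℤ) ^ 2) with hT
  have hmaps : ∀ w ∈ S, key w ∈ T := by
    intro w hw
    rw [hT, Finset.mem_product, Finset.mem_Icc, Finset.mem_Icc]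
    refine ⟨⟨Finset.sum_nonneg fun i _ => by omega, ?_⟩,
      ⟨Finset.sum_nonneg fun i _ => sq_nonneg _, Finset.sum_le_sum fun i _ => W_sq_le (hSmem w hw i)⟩⟩
    calc ∑ i, w i % 2 ≤ ∑ _i : ι, (1 : ℤ) := Finset.sum_le_sum fun i _ => by omega
      _ = Fintype.card ι := by simp
  have hTne : T.Nonempty := by
    refine ⟨(0, 0), ?_⟩
    rw [hT, Finset.mem_product, Finset.mem_Icc, Finset.mem_Icc]
    exact ⟨⟨le_refl _, by positivity⟩, ⟨le_refl _, by positivity⟩⟩
  obtain ⟨y, hyT, hymax⟩ := Finset.exists_max_image T (fun y => (S.filter (fun w => key w = y)).card) hTne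
  set F : Finset (ι → ℤ) := S.filter (fun w => key w = y) with hF
  have hcardS : S.card ≤ F.card * T.card :=
    Finset.card_le_mul_card_image_of_maps_to hmaps F.card hymax
  have hcardT : T.card = (Fintype.card ι + 1) * (∑ i, (s i) ^ 2 + 1) := by
    rw [hT, Finset.card_product, Int.card_Icc, Int.card_Icc]
    have e1 : ((Fintype.card ι : ℤ) + 1 - 0).toNat = Fintype.card ι + 1 := by omega
    have e2 : (∑ i, (s i : ℤ) ^ 2 + 1 - 0).toNat = ∑ i, (s i) ^ 2 + 1 := by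
      have : (∑ i, (s i : ℤ) ^ 2) = ((∑ i, (s i) ^ 2 : ℕ) : ℤ) := by push_cast; rfl
      rw [this]
      omega
    rw [e1, e2]
  have hinj : Set.InjOn (fun w => Φ w + 1) (F : Set (ι → ℤ)) := by
    intro w hw w' hw' h
    have hw1 := hSmem w (Finset.mem_filter.mp hw).1
    have hw2 := hSmem w' (Finset.mem_filter.mp hw').1
    have h' : Φ w = Φ w' := by simpa using h
    funext i
    apply W_inj (hw1 i) (hw2 i)
    have h1 := hΦdvd w i
    have h2 := hΦdvd w' i
    rw [h'] at h1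
    have := dvd_sub h2 h1
    simpa using this
  refine ⟨F.image (fun w => Φ w + 1), ?_, ?_, ?_⟩
  · intro x hx
    obtain ⟨w, -, rfl⟩ := Finset.mem_image.mp hx
    rw [Finset.mem_Icc]
    have := hΦlt w
    omega
  · rintro ⟨a, d, hd, hap⟩
    have hex : ∀ j < 4, ∃ w ∈ F, Φ w + 1 = a + j * d := fun j hj => by
      simpa using Finset.mem_image.mp (hap j hj)
    obtain ⟨w0, hw0, e0⟩ := hex 0 (by norm_num)
    obtain ⟨w1, hw1, e1⟩ := hex 1 (by norm_num)
    obtain ⟨w2, hw2, e2⟩ := hex 2 (by norm_num)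
    obtain ⟨w3, hw3, e3⟩ := hex 3 (by norm_num)
    have m0 := Finset.mem_filter.mp hw0
    have m1 := Finset.mem_filter.mp hw1
    have m2 := Finset.mem_filter.mp hw2
    have m3 := Finset.mem_filter.mp hw3
    have hlin : ∀ i, w1 i % 2 + w2 i % 2 ≤ w0 i % 2 + w3 i % 2 ∧
        (w1 i % 2 + w2 i % 2 = w0 i % 2 + w3 i % 2 →
          w0 i - 2 * w1 i + w2 i = 0 ∧ w1 i - 2 * w2 i + w3 i = 0) := by
      intro i
      apply local_linear (hodd i) (hSmem w0 m0.1 i) (hSmem w1 m1.1 i) (hSmem w2 m2.1 i)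
        (hSmem w3 m3.1 i)
      · have h := (dvd_sub (dvd_add (hΦdvd w0 i) (hΦdvd w2 i)) ((hΦdvd w1 i).mul_left 2))
        have e : ((Φ w0 : ℤ) - w0 i + ((Φ w2 : ℤ) - w2 i) - 2 * ((Φ w1 : ℤ) - w1 i))
            = -(w0 i - 2 * w1 i + w2 i) := by
          have : (Φ w0 : ℤ) + Φ w2 = 2 * Φ w1 := by
            have : Φ w0 + Φ w2 = 2 * Φ w1 := by omega
            exact_mod_cast this
          linarith
        rw [e] at h
        exact (dvd_neg.mp h)
      · have h := (dvd_sub (dvd_add (hΦdvd w1 i) (hΦdvd w3 i)) ((hΦdvd w2 i).mul_left 2))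
        have e : ((Φ w1 : ℤ) - w1 i + ((Φ w3 : ℤ) - w3 i) - 2 * ((Φ w2 : ℤ) - w2 i))
            = -(w1 i - 2 * w2 i + w3 i) := by
          have : (Φ w1 : ℤ) + Φ w3 = 2 * Φ w2 := by
            have : Φ w1 + Φ w3 = 2 * Φ w2 := by omega
            exact_mod_cast this
          linarith
        rw [e] at h
        exact (dvd_neg.mp h)
    have k0 : (∑ i, w0 i % 2, ∑ i, (w0 i) ^ 2) = y := m0.2
    have k1 : (∑ i, w1 i % 2, ∑ i, (w1 i) ^ 2) = y := m1.2
    have k2 : (∑ i, w2 i % 2, ∑ i, (w2 i) ^ 2) = y := m2.2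
    have k3 : (∑ i, w3 i % 2, ∑ i, (w3 i) ^ 2) = y := m3.2
    have p0 := congrArg Prod.fst k0
    have p1 := congrArg Prod.fst k1
    have p2 := congrArg Prod.fst k2
    have p3 := congrArg Prod.fst k3
    have q0 := congrArg Prod.snd k0
    have q1 := congrArg Prod.snd k1
    have q2 := congrArg Prod.snd k2
    have q3 := congrArg Prod.snd k3
    simp only at p0 p1 p2 p3 q0 q1 q2 q3
    have hsum1 : ∑ i, (w0 i % 2 + w3 i % 2 - (w1 i % 2 + w2 i % 2)) = 0 := by
      simp only [Finset.sum_sub_distrib, Finset.sum_add_distrib]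
      rw [p0, p1, p2, p3]; ring
    have hz1 := (Finset.sum_eq_zero_iff_of_nonneg (fun i _ => by have := (hlin i).1; omega)).mp hsum1
    have hgen : ∀ i, w0 i - 2 * w1 i + w2 i = 0 ∧ w1 i - 2 * w2 i + w3 i = 0 := fun i =>
      (hlin i).2 (by have := hz1 i (Finset.mem_univ i); omega)
    have hsum2 : ∑ i, ((w0 i) ^ 2 + (w3 i) ^ 2 - ((w1 i) ^ 2 + (w2 i) ^ 2)) = 0 := by
      simp only [Finset.sum_sub_distrib, Finset.sum_add_distrib]
      rw [q0, q1, q2, q3]; ring
    have hz2 := (Finset.sum_eq_zero_iff_of_nonneg (fun i _ => by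
      have := (local_quad (hgen i).1 (hgen i).2).1; linarith)).mp hsum2
    have heq : w0 = w1 := by
      funext i
      exact (local_quad (hgen i).1 (hgen i).2).2 (by have := hz2 i (Finset.mem_univ i); linarith)
    rw [heq] at e0
    omega
  · rw [Finset.card_image_of_injOn hinj, ← hcardT]
    calc ∏ i, (W (s i)).card = S.card := by rw [hS, Fintype.card_piFinset]
      _ ≤ F.card * T.card := hcardS

end Vale.Agent.P057
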