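import Vale.Agent.P057.Asymp5

namespace Vale.Agent.P057

open Real

/-- facts on `V = exp (log R / m)` with `R = n^7 X^2` -/
theorem aux5_V (n m X Y V a x : ℝ) (hn0 : 1 ≤ n) (hm0 : 1 ≤ m) (hx1 : 1 ≤ x) (ha1 : 1 ≤ a)
    (hn3 : n ≤ a * x) (hm3 : m ≤ a * x) (hY : Y = Real.exp (x ^ 3 / n)) (hYX : Y ≤ X)
    (hXY : X ≤ 2 * Y) (hV : V = Real.exp (Real.log (n ^ 7 * X ^ 2) / m)) :
    Real.exp (2 * x / a ^ 2) ≤ V ∧
      V ^ 2 ≤ Real.exp (14 * Real.log n + 4 * Real.log 2 + 4 * x ^ 3 / (n * m)) := by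
  have hnpos : 0 < n := by linarith
  have hmpos : 0 < m := by linarith
  have hxpos : 0 < x := by linarith
  have hYpos : 0 < Y := by rw [hY]; exact Real.exp_pos _
  have hXpos : 0 < X := by linarith
  have hlogY : Real.log Y = x ^ 3 / n := by rw [hY, Real.log_exp]
  have hlogR : Real.log (n ^ 7 * X ^ 2) = 7 * Real.log n + 2 * Real.log X := by
    rw [Real.log_mul (by positivity) (by positivity), Real.log_pow, Real.log_pow]
    norm_num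
  have hlogn : 0 ≤ Real.log n := Real.log_nonneg hn0
  have hlogX1 : x ^ 3 / n ≤ Real.log X := by rw [← hlogY]; exact Real.log_le_log hYpos hYX
  have hlogX2 : Real.log X ≤ Real.log 2 + x ^ 3 / n := by
    rw [← hlogY, ← Real.log_mul (by norm_num) hYpos.ne']
    exact Real.log_le_log hXpos hXY
  have hlog2 : 0 ≤ Real.log 2 := Real.log_nonneg (by norm_num)
  constructor
  · rw [hV]
    apply Real.exp_le_exp.mpr
    rw [hlogR, le_div_iff₀ hmpos]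
    have h1 : 2 * x / a ^ 2 * m ≤ 2 * (x ^ 3 / n) := by
      rw [show 2 * x / a ^ 2 * m = (2 * x * m) / a ^ 2 by ring,
        show 2 * (x ^ 3 / n) = (2 * x ^ 3) / n by ring, div_le_div_iff₀ (by positivity) hnpos]
      have h2 : m * n ≤ (a * x) * (a * x) := mul_le_mul hm3 hn3 hnpos.le (by positivity)
      nlinarith [mul_le_mul_of_nonneg_left h2 (by positivity : (0 : ℝ) ≤ 2 * x)]
    linarith
  · rw [hV, ← Real.exp_nat_mul]
    apply Real.exp_le_exp.mpr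
    rw [hlogR]
    have h1 : (14 * Real.log n + 4 * Real.log 2) / m ≤ 14 * Real.log n + 4 * Real.log 2 :=
      div_le_self (by positivity) hm0
    have h2 : ((2 : ℕ) : ℝ) * ((7 * Real.log n + 2 * Real.log X) / m) ≤
        (14 * Real.log n + 4 * Real.log 2) / m + 4 * x ^ 3 / (n * m) := by
      have e : 4 * x ^ 3 / (n * m) = (4 * (x ^ 3 / n)) / m := by field_simp
      rw [e, ← add_div, ← mul_div_assoc]
      apply div_le_div_of_nonneg_right _ hmpos.le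
      push_cast
      linarith
    linarith

theorem core5_bound (N : ℕ) (ε l1 l2 c1 a x : ℝ) (hl1 : l1 = Real.log (12 / 7))
    (hl2 : l2 = Real.log 4) (hl1pos : 0 < l1) (hl2pos : 0 < l2)
    (hc1 : c1 ^ 3 = 4 * l1 * l2) (hc1pos : 0 < c1) (ha : a = c1 / l1 + c1 / l2 + 1)
    (hx : x ^ 3 = Real.log N) (H0 : 1 ≤ x) (H1 : 6 ≤ c1 * x / l1) (H1' : 6 ≤ c1 * x / l2)
    (H2 : 8 * (a * x) ≤ Real.exp (x / a)) (H2' : 8 * (a * x) ≤ Real.exp (2 * x / a ^ 2))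
    (H3 : l1 + l2 + Real.log 12288 + 22 * Real.log (a * x) ≤ ε * x) :
    (N : ℝ) * Real.exp (-(3 * c1 + ε) * x) ≤ rk 5 N := by
  have hxpos : 0 < x := by linarith
  have hq1 : 0 < c1 / l1 := by positivity
  have hq2 : 0 < c1 / l2 := by positivity
  have ha1 : 1 ≤ a := by rw [ha]; linarith
  have hax : a * x = c1 * x / l1 + c1 * x / l2 + x := by rw [ha]; ring
  obtain ⟨n, hn⟩ : ∃ n : ℕ, n = ⌈c1 * x / l1⌉₊ := ⟨_, rfl⟩
  have hn1 : c1 * x / l1 ≤ n := by rw [hn]; exact Nat.le_ceil _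
  have hn2 : (n : ℝ) < c1 * x / l1 + 1 := by rw [hn]; exact Nat.ceil_lt_add_one (by positivity)
  have hn3 : (n : ℝ) ≤ a * x := by
    have : 0 < c1 * x / l2 := by positivity
    rw [hax]; linarith
  have hn6 : 6 ≤ n := by
    have : (6 : ℝ) ≤ n := H1.trans hn1
    exact_mod_cast this
  obtain ⟨m, hm⟩ : ∃ m : ℕ, m = ⌈c1 * x / l2⌉₊ := ⟨_, rfl⟩
  have hm1 : c1 * x / l2 ≤ m := by rw [hm]; exact Nat.le_ceil _
  have hm2 : (m : ℝ) < c1 * x / l2 + 1 := by rw [hm]; exact Nat.ceil_lt_add_one (by positivity)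
  have hm3 : (m : ℝ) ≤ a * x := by
    have : 0 < c1 * x / l1 := by positivity
    rw [hax]; linarith
  have hm6 : 6 ≤ m := by
    have : (6 : ℝ) ≤ m := H1'.trans hm1
    exact_mod_cast this
  have hnpos : (0 : ℝ) < n := by linarith
  have hn1' : (1 : ℝ) ≤ n := by linarith
  have hmpos : (0 : ℝ) < m := by linarith
  have hm1' : (1 : ℝ) ≤ m := by linarith
  have hNpos : 0 < N := by
    rcases Nat.eq_zero_or_pos N with h | h
    · rw [h] at hx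
      simp at hx
      nlinarith
    · exact h
  have hNpos' : (0 : ℝ) < N := by exact_mod_cast hNpos
  obtain ⟨Y, hY⟩ : ∃ Y : ℝ, Y = Real.exp (x ^ 3 / n) := ⟨_, rfl⟩
  have hYpos : 0 < Y := by rw [hY]; exact Real.exp_pos _
  obtain ⟨X, hX⟩ : ∃ X : ℕ, X = ⌈Y⌉₊ := ⟨_, rfl⟩
  have hX1 : Y ≤ X := by rw [hX]; exact Nat.le_ceil _
  have hX2 : (X : ℝ) < Y + 1 := by rw [hX]; exact Nat.ceil_lt_add_one hYpos.le
  have hY1 : 1 ≤ Y := by rw [hY]; exact Real.one_le_exp (by positivity)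
  have hX3 : (X : ℝ) ≤ 2 * Y := by linarith
  have hYn : Y ^ n = N := by
    rw [hY, ← Real.exp_nat_mul, mul_div_cancel₀ _ hnpos.ne', hx, Real.exp_log hNpos']
  have hXn : N ≤ X ^ n := by
    have : (N : ℝ) ≤ (X : ℝ) ^ n := by
      rw [← hYn]
      exact pow_le_pow_left₀ hYpos.le hX1 n
    exact_mod_cast this
  have hY8 : 8 * (n : ℝ) ≤ Y := by
    have h1 : x / a ≤ x ^ 3 / n := by
      rw [div_le_div_iff₀ (by positivity) hnpos]
      have : x * n ≤ x * (a * x) := mul_le_mul_of_nonneg_left hn3 hxpos.le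
      nlinarith [mul_nonneg (mul_nonneg hxpos.le hxpos.le) (mul_nonneg (by linarith : (0:ℝ) ≤ a)
        (by linarith : (0:ℝ) ≤ x - 1))]
    calc 8 * (n : ℝ) ≤ 8 * (a * x) := by linarith
      _ ≤ Real.exp (x / a) := H2
      _ ≤ Y := by rw [hY]; exact Real.exp_le_exp.mpr h1
  have hX8 : 8 * (n : ℝ) ≤ X := hY8.trans hX1
  have hX4' : (4 : ℝ) ≤ X := by linarith
  have hX4 : 4 ≤ X := by exact_mod_cast hX4'
  obtain ⟨V, hV⟩ : ∃ V : ℝ, V = Real.exp (Real.log ((n : ℝ) ^ 7 * (X : ℝ) ^ 2) / m) := ⟨_, rfl⟩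
  have hVpos : 0 < V := by rw [hV]; exact Real.exp_pos _
  obtain ⟨hVa, hVb⟩ := aux5_V n m X Y V a x hn1' hm1' H0 ha1 hn3 hm3 hY hX1 hX3 hV
  obtain ⟨Z, hZ⟩ : ∃ Z : ℕ, Z = ⌈V⌉₊ := ⟨_, rfl⟩
  have hZ1 : V ≤ Z := by rw [hZ]; exact Nat.le_ceil _
  have hZ2 : (Z : ℝ) < V + 1 := by rw [hZ]; exact Nat.ceil_lt_add_one hVpos.le
  have hV8 : 8 * (m : ℝ) ≤ V := by
    calc 8 * (m : ℝ) ≤ 8 * (a * x) := by linarith
      _ ≤ Real.exp (2 * x / a ^ 2) := H2'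
      _ ≤ V := hVa
  have hZ3 : (Z : ℝ) ≤ 2 * V := by linarith
  have hZ8 : 8 * (m : ℝ) ≤ Z := hV8.trans hZ1
  have hZ4 : 4 ≤ Z := by
    have : (4 : ℝ) ≤ Z := by linarith
    exact_mod_cast this
  have hVm : V ^ m = (n : ℝ) ^ 7 * (X : ℝ) ^ 2 := by
    rw [hV, ← Real.exp_nat_mul, mul_div_cancel₀ _ hmpos.ne', Real.exp_log (by positivity)]
  have hZm : n ^ 7 * X ^ 2 ≤ Z ^ m := by
    have : (n : ℝ) ^ 7 * (X : ℝ) ^ 2 ≤ (Z : ℝ) ^ m := by
      rw [← hVm]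
      exact pow_le_pow_left₀ hVpos.le hZ1 m
    exact_mod_cast this
  have hmain := rk5_ge n m X Z N hn6 hm6 hX4 hZ4 hNpos hXn hZm
  have hexp := aux5_exp n m ε l1 l2 c1 a x hl1pos hl2pos hc1 hc1pos hxpos hn1 hn2 hn3 hn1'
    hm1 hm2 hm3 hm1' H3
  have hED := aux5_ED n m X Z V ε l1 l2 c1 x hl1 hl2 (by omega) (by omega) hX8 hZ8 hZ3 hVb hexp
  obtain ⟨D, hD⟩ : ∃ D : ℝ, D = 12 * ((n : ℝ) + 1) * ((m : ℝ) ^ 7 * (Z : ℝ) ^ 2 + 1) := ⟨_, rfl⟩
  rw [← hD] at hmain hED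
  have hDpos : 0 < D := by rw [hD]; positivity
  have hfin : D * ((N : ℝ) * Real.exp (-(3 * c1 + ε) * x)) ≤ D * rk 5 N := by
    calc D * ((N : ℝ) * Real.exp (-(3 * c1 + ε) * x))
        = (N : ℝ) * (Real.exp (-(3 * c1 + ε) * x) * D) := by ring
      _ ≤ (N : ℝ) * ((7 / 12 - 2 / (X : ℝ)) ^ n * (1 / 4 - 1 / (Z : ℝ)) ^ m) := by
          apply mul_le_mul_of_nonneg_left hED hNpos'.le
      _ = (N : ℝ) * (7 / 12 - 2 / (X : ℝ)) ^ n * (1 / 4 - 1 / (Z : ℝ)) ^ m := by ring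
      _ ≤ D * rk 5 N := hmain
  exact le_of_mul_le_mul_left hfin hDpos

end Vale.Agent.P057
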