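import Vale.Agent.P057.AsympG

namespace Vale.Agent.P057

open Real

theorem core_step (P' P : Finset ℕ → Prop) (ρ b : ℝ) (X₀ : ℕ) (hρ0 : 0 < ρ) (hb : 0 ≤ b)
    (H : StepH P' P ρ b X₀) (s : ℕ) (hs : 1 ≤ s) (cc : ℝ) (hcc : 0 ≤ cc) (N₀' : ℕ)
    (hBig : ∀ R ≥ N₀', ∃ B : Finset ℕ, B ⊆ Finset.Icc 1 R ∧ P' B ∧
      (R : ℝ) * Real.exp (-cc * (Real.log R) ^ ((1 : ℝ) / s)) ≤ B.card)
    (κ μ δ lam E : ℝ) (hκ : 0 < κ) (hμ : 0 < μ) (hμs : μ ^ s = 2 / κ) (hδ : 0 < δ)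
    (hlam : lam = Real.log (1 / ρ)) (hlam0 : 0 ≤ lam)
    (N : ℕ) (x : ℝ) (hx : x ^ (s + 1) = Real.log N) (H0 : 1 ≤ x) (H1 : 6 ≤ κ * x)
    (H2 : (X₀ : ℝ) ≤ Real.exp (x / (2 * κ))) (H3 : 4 * b * κ * x ≤ ρ * Real.exp (x / (2 * κ)))
    (H4 : (N₀' : ℝ) ≤ Real.exp (x / (2 * κ)))
    (H5 : 2 * Real.log 2 + 7 * Real.log (2 * κ * x) ≤ 2 * δ / κ * x)
    (H6 : lam + Real.log (36 * κ * x) + (κ * lam * x + cc * (μ * (1 + δ) * x)) ≤ E * x) :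
    ∃ A : Finset ℕ, A ⊆ Finset.Icc 1 N ∧ P A ∧ (N : ℝ) * Real.exp (-E * x) ≤ A.card := by
  have hxpos : 0 < x := by linarith
  obtain ⟨d, hd⟩ : ∃ d : ℕ, d = ⌈κ * x⌉₊ := ⟨_, rfl⟩
  have hd1 : κ * x ≤ d := by rw [hd]; exact Nat.le_ceil _
  have hd2 : (d : ℝ) < κ * x + 1 := by rw [hd]; exact Nat.ceil_lt_add_one (by positivity)
  have hd3 : (d : ℝ) ≤ 2 * κ * x := by linarith
  have hd6 : 6 ≤ d := by
    have : (6 : ℝ) ≤ d := H1.trans hd1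
    exact_mod_cast this
  have hdpos : (0 : ℝ) < d := by linarith
  have hNpos : 0 < N := by
    rcases Nat.eq_zero_or_pos N with h | h
    · rw [h] at hx
      simp at hx
      linarith
    · exact h
  have hNpos' : (0 : ℝ) < N := by exact_mod_cast hNpos
  obtain ⟨Y, hY⟩ : ∃ Y : ℝ, Y = Real.exp (x ^ (s + 1) / d) := ⟨_, rfl⟩
  have hYpos : 0 < Y := by rw [hY]; exact Real.exp_pos _
  obtain ⟨X, hX⟩ : ∃ X : ℕ, X = ⌈Y⌉₊ := ⟨_, rfl⟩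
  have hX1 : Y ≤ X := by rw [hX]; exact Nat.le_ceil _
  have hX2 : (X : ℝ) < Y + 1 := by rw [hX]; exact Nat.ceil_lt_add_one hYpos.le
  have hY1 : 1 ≤ Y := by rw [hY]; exact Real.one_le_exp (by positivity)
  have hX3 : (X : ℝ) ≤ 2 * Y := by linarith
  have hXpos : (0 : ℝ) < X := by linarith
  have hYd : Y ^ d = N := by
    rw [hY, ← Real.exp_nat_mul, mul_div_cancel₀ _ hdpos.ne', hx, Real.exp_log hNpos']
  have hXd : N ≤ X ^ d := by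
    have : (N : ℝ) ≤ (X : ℝ) ^ d := by
      rw [← hYd]
      exact pow_le_pow_left₀ hYpos.le hX1 d
    exact_mod_cast this
  have hYlow : Real.exp (x / (2 * κ)) ≤ Y := by
    rw [hY]
    exact Real.exp_le_exp.mpr (Y_lower s hs d x κ hκ H0 hdpos hd3)
  have hXX₀ : X₀ ≤ X := by
    have : (X₀ : ℝ) ≤ X := H2.trans (hYlow.trans hX1)
    exact_mod_cast this
  have hbern : 2 * b * d ≤ ρ * X := by
    have h1 : 2 * b * d ≤ 2 * b * (2 * κ * x) := mul_le_mul_of_nonneg_left hd3 (by positivity)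
    have h2 : ρ * Real.exp (x / (2 * κ)) ≤ ρ * X :=
      mul_le_mul_of_nonneg_left (hYlow.trans hX1) hρ0.le
    linarith
  have hX1' : (1 : ℝ) ≤ X := hY1.trans hX1
  have hRX : (X : ℝ) ≤ (d : ℝ) ^ 7 * (X : ℝ) ^ 2 := by
    have h1 : (1 : ℝ) ≤ (d : ℝ) ^ 7 := one_le_pow₀ (by linarith)
    have h2 : (X : ℝ) ≤ (X : ℝ) ^ 2 := by nlinarith
    nlinarith
  have hRN₀ : N₀' ≤ d ^ 7 * X ^ 2 := by
    have : (N₀' : ℝ) ≤ (d : ℝ) ^ 7 * (X : ℝ) ^ 2 := H4.trans (hYlow.trans (hX1.trans hRX))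
    exact_mod_cast this
  obtain ⟨B, hB, hPB, hBcard⟩ := hBig (d ^ 7 * X ^ 2) hRN₀
  obtain ⟨A, hA, hPA, hAcard⟩ := H d X N (d ^ 7 * X ^ 2) hd6 hXX₀ hNpos hXd B hB hPB
  refine ⟨A, hA, hPA, ?_⟩
  have hRcast : ((d ^ 7 * X ^ 2 : ℕ) : ℝ) = (d : ℝ) ^ 7 * (X : ℝ) ^ 2 := by push_cast; ring
  rw [hRcast] at hBcard hAcard
  have hR1 : (1 : ℝ) ≤ (d : ℝ) ^ 7 * (X : ℝ) ^ 2 := hX1'.trans hRX
  have hlogR := logR_bound s hs d X Y x κ μ δ hκ hμs hδ H0 hd1 hd3 hY hXpos hX3 H5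
  have hlogR0 : 0 ≤ Real.log ((d : ℝ) ^ 7 * (X : ℝ) ^ 2) := Real.log_nonneg hR1
  have hy0 : 0 ≤ μ * (1 + δ) * x := by positivity
  have hroot : (Real.log ((d : ℝ) ^ 7 * (X : ℝ) ^ 2)) ^ ((1 : ℝ) / s) ≤ μ * (1 + δ) * x := by
    calc (Real.log ((d : ℝ) ^ 7 * (X : ℝ) ^ 2)) ^ ((1 : ℝ) / s)
        ≤ ((μ * (1 + δ) * x) ^ s) ^ ((1 : ℝ) / s) :=
          Real.rpow_le_rpow hlogR0 hlogR (by positivity)
      _ = μ * (1 + δ) * x := by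
          rw [one_div]
          exact Real.pow_rpow_inv_natCast hy0 (by omega)
  have hB' : (d : ℝ) ^ 7 * (X : ℝ) ^ 2 * Real.exp (-cc * (μ * (1 + δ) * x)) ≤ B.card := by
    refine le_trans ?_ hBcard
    apply mul_le_mul_of_nonneg_left _ (by positivity)
    apply Real.exp_le_exp.mpr
    have := mul_le_mul_of_nonneg_left hroot hcc
    linarith
  exact combine_step N ρ b X _ B.card A.card lam cc _ E x κ d (by omega) hρ0 hb hXpos hbern hR1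
    hNpos'.le (by positivity) hlam hlam0 (by linarith) hd2.le hB' hAcard H6

end Vale.Agent.P057
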