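import Mathlib

namespace Vale.Agent.P057

/-- `A` contains a `k`-term arithmetic progression `a, a + d, ..., a + (k - 1) d`
with common difference `d > 0`. -/
def HasAP (k : ℕ) (A : Finset ℕ) : Prop :=
  ∃ a d : ℕ, 0 < d ∧ ∀ i < k, a + i * d ∈ A

/-- `rk k N` is the largest cardinality of a subset of `{1, ..., N}` containing no
`k`-term arithmetic progression. -/
noncomputable def rk (k N : ℕ) : ℕ :=
  sSup {m : ℕ | ∃ A : Finset ℕ, A ⊆ Finset.Icc 1 N ∧ ¬ HasAP k A ∧ A.card = m}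

theorem card_le_rk {k N : ℕ} {A : Finset ℕ} (hA : A ⊆ Finset.Icc 1 N) (hAP : ¬ HasAP k A) :
    A.card ≤ rk k N := by
  apply le_csSup
  · refine ⟨N, ?_⟩
    rintro m ⟨B, hB, -, rfl⟩
    simpa using Finset.card_le_card hB
  · exact ⟨A, hA, hAP, rfl⟩

end Vale.Agent.P057
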