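import Vale.Agent.P057.PolyAux
import Vale.Agent.P057.Defs

namespace Vale.Agent.P057

open Polynomial Finset

/-- `B` contains no nonconstant `k`-term polynomial progression of degree at most `D` -/
def FreeD (k D : ℕ) (B : Finset ℕ) : Prop :=
  ∀ P : ℚ[X], P.natDegree ≤ D → (∀ j < k, ∃ b ∈ B, P.eval (j : ℚ) = (b : ℚ)) →
    ∀ j < k, P.eval (j : ℚ) = P.eval 0

theorem FreeD_shift (k D : ℕ) (A A' : Finset ℕ) (c : ℕ) (hA : FreeD k D A)
    (h : ∀ x ∈ A', x + c ∈ A) : FreeD k D A' := by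
  intro P hP hval j hj
  have h1 := hA (P + C (c : ℚ)) (by
    refine (Polynomial.natDegree_add_le _ _).trans ?_
    simp [hP]) (by
    intro j hj
    obtain ⟨b, hb, e⟩ := hval j hj
    refine ⟨b + c, h b hb, ?_⟩
    simp [e]) j hj
  simpa using h1

theorem FreeD_singleton (k D v : ℕ) : FreeD k D {v} := by
  intro P _ hval j hj
  obtain ⟨b, hb, e⟩ := hval j hj
  obtain ⟨b', hb', e'⟩ := hval 0 (by omega)
  rw [Finset.mem_singleton] at hb hb'
  subst hb
  subst hb'
  rw [e]
  simpa using e'.symm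

theorem not_hasAP_of_FreeD {k : ℕ} (hk : 2 ≤ k) {A : Finset ℕ} (hA : FreeD k 1 A) : ¬ HasAP k A := by
  rintro ⟨a, d, hd, hap⟩
  have h1 := hA (C (a : ℚ) + C (d : ℚ) * X) (by
    refine (Polynomial.natDegree_add_le _ _).trans ?_
    have h2 : (C (d : ℚ) * X).natDegree ≤ 1 :=
      (Polynomial.natDegree_C_mul_le _ _).trans Polynomial.natDegree_X_le
    have h3 : (C (a : ℚ)).natDegree = 0 := Polynomial.natDegree_C _
    rw [h3]
    exact max_le (by omega) h2) (by
    intro j hj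
    refine ⟨a + j * d, hap j hj, ?_⟩
    simp
    ring) 1 (by omega)
  simp at h1
  omega

end Vale.Agent.P057
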