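import Vale.Agent.P057.Level2

namespace Vale.Agent.P057

open Finset

theorem exists_AP5free {ι : Type*} [Fintype ι] [DecidableEq ι] (s : ι → ℕ)
    (hodd : ∀ i, s i % 2 = 1) (hco : Pairwise (Function.onFun Nat.Coprime s))
    (R : ℕ) (B : Finset ℕ) (hB : B ⊆ Finset.Icc 1 R) (hfree : Free52 B) :
    ∃ A : Finset ℕ, A ⊆ Finset.Icc 1 (∏ i, s i) ∧ ¬ HasAP 5 A ∧
      (∏ i, (W5 (s i)).card) * B.card ≤
        A.card * ((Fintype.card ι + 1) * (∑ i, (s i) ^ 2 + R + 1)) := by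
  classical
  have hs : ∀ i, s i ≠ 0 := fun i => by have := hodd i; omega
  choose Φ hΦlt hΦdvd using crt_int s hs hco
  set S : Finset (ι → ℤ) := Fintype.piFinset (fun i => W5 (s i)) with hS
  have hSmem : ∀ w ∈ S, ∀ i, InW5 (s i) (w i) := fun w hw i =>
    mem_W5.mp (Fintype.mem_piFinset.mp hw i)
  let key : (ι → ℤ) × ℕ → ℤ × ℤ := fun p => (∑ i, p.1 i % 2, ∑ i, (p.1 i) ^ 2 + R - p.2)
  set T : Finset (ℤ × ℤ) :=
    Finset.Icc (0 : ℤ) (Fintype.card ι) ×ˢ Finset.Icc (0 : ℤ) (∑ i, (s i : ℤ) ^ 2 + R) with hT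
  have hmaps : ∀ p ∈ S ×ˢ B, key p ∈ T := by
    intro p hp
    obtain ⟨hw, hb⟩ := Finset.mem_product.mp hp
    have hb' := Finset.mem_Icc.mp (hB hb)
    have hb1 : (1 : ℤ) ≤ p.2 := by exact_mod_cast hb'.1
    have hb2 : (p.2 : ℤ) ≤ R := by exact_mod_cast hb'.2
    have h1 : 0 ≤ ∑ i, (p.1 i) ^ 2 := Finset.sum_nonneg fun i _ => sq_nonneg _
    have h2 : ∑ i, (p.1 i) ^ 2 ≤ ∑ i, (s i : ℤ) ^ 2 :=
      Finset.sum_le_sum fun i _ => W5_sq_le (hSmem p.1 hw i)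
    rw [hT, Finset.mem_product, Finset.mem_Icc, Finset.mem_Icc]
    refine ⟨⟨Finset.sum_nonneg fun i _ => by omega, ?_⟩, ⟨?_, ?_⟩⟩
    · calc ∑ i, p.1 i % 2 ≤ ∑ _i : ι, (1 : ℤ) := Finset.sum_le_sum fun i _ => by omega
        _ = Fintype.card ι := by simp
    · show 0 ≤ ∑ i, (p.1 i) ^ 2 + R - p.2
      linarith
    · show ∑ i, (p.1 i) ^ 2 + R - p.2 ≤ _
      linarith
  have hTne : T.Nonempty := by
    refine ⟨(0, 0), ?_⟩
    rw [hT, Finset.mem_product, Finset.mem_Icc, Finset.mem_Icc]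
    exact ⟨⟨le_refl _, by positivity⟩, ⟨le_refl _, by positivity⟩⟩
  obtain ⟨y, hyT, hymax⟩ := Finset.exists_max_image T
    (fun y => ((S ×ˢ B).filter (fun p => key p = y)).card) hTne
  set G : Finset ((ι → ℤ) × ℕ) := (S ×ˢ B).filter (fun p => key p = y) with hG
  have hcardS : (S ×ˢ B).card ≤ G.card * T.card :=
    Finset.card_le_mul_card_image_of_maps_to hmaps G.card hymax
  have hcardT : T.card = (Fintype.card ι + 1) * (∑ i, (s i) ^ 2 + R + 1) := by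
    rw [hT, Finset.card_product, Int.card_Icc, Int.card_Icc]
    have e1 : ((Fintype.card ι : ℤ) + 1 - 0).toNat = Fintype.card ι + 1 := by omega
    have e2 : (∑ i, (s i : ℤ) ^ 2 + R + 1 - 0).toNat = ∑ i, (s i) ^ 2 + R + 1 := by
      have : (∑ i, (s i : ℤ) ^ 2) = ((∑ i, (s i) ^ 2 : ℕ) : ℤ) := by push_cast; rfl
      rw [this]
      omega
    rw [e1, e2]
  have hGmem : ∀ p ∈ G, p.1 ∈ S ∧ p.2 ∈ B ∧ ∑ i, p.1 i % 2 = y.1 ∧
      (p.2 : ℤ) = ∑ i, (p.1 i) ^ 2 + R - y.2 := by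
    intro p hp
    obtain ⟨hp1, hp2⟩ := Finset.mem_filter.mp hp
    obtain ⟨hw, hb⟩ := Finset.mem_product.mp hp1
    have e1 := congrArg Prod.fst hp2
    have e2 := congrArg Prod.snd hp2
    simp only [key] at e1 e2
    exact ⟨hw, hb, e1, by linarith⟩
  have hΦinj : ∀ w ∈ S, ∀ w' ∈ S, Φ w = Φ w' → w = w' := by
    intro w hw w' hw' h'
    funext i
    apply W5_inj (hSmem w hw i) (hSmem w' hw' i)
    have h1 := hΦdvd w i
    have h2 := hΦdvd w' i
    rw [h'] at h1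
    have := dvd_sub h2 h1
    simpa using this
  have hinj : Set.InjOn (fun p : (ι → ℤ) × ℕ => Φ p.1 + 1) (G : Set ((ι → ℤ) × ℕ)) := by
    intro p hp p' hp' h
    have m := hGmem p hp
    have m' := hGmem p' hp'
    have h' : Φ p.1 = Φ p'.1 := by simpa using h
    have hw := hΦinj _ m.1 _ m'.1 h'
    have hb : (p.2 : ℤ) = p'.2 := by rw [m.2.2.2, m'.2.2.2, hw]
    exact Prod.ext hw (by exact_mod_cast hb)
  refine ⟨G.image (fun p => Φ p.1 + 1), ?_, ?_, ?_⟩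
  · intro x hx
    obtain ⟨p, -, rfl⟩ := Finset.mem_image.mp hx
    rw [Finset.mem_Icc]
    have := hΦlt p.1
    omega
  · rintro ⟨a, d, hd, hap⟩
    have hex : ∀ j < 5, ∃ p ∈ G, Φ p.1 + 1 = a + j * d := fun j hj => by
      simpa using Finset.mem_image.mp (hap j hj)
    obtain ⟨p0, hp0, e0⟩ := hex 0 (by norm_num)
    obtain ⟨p1, hp1, e1⟩ := hex 1 (by norm_num)
    obtain ⟨p2, hp2, e2⟩ := hex 2 (by norm_num)
    obtain ⟨p3, hp3, e3⟩ := hex 3 (by norm_num)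
    obtain ⟨p4, hp4, e4⟩ := hex 4 (by norm_num)
    have m0 := hGmem p0 hp0
    have m1 := hGmem p1 hp1
    have m2 := hGmem p2 hp2
    have m3 := hGmem p3 hp3
    have m4 := hGmem p4 hp4
    have hsecdvd : ∀ (u0 u1 u2 : ι → ℤ), Φ u0 + Φ u2 = 2 * Φ u1 →
        ∀ i, (s i : ℤ) ∣ u0 i - 2 * u1 i + u2 i := by
      intro u0 u1 u2 he i
      have h := (dvd_sub (dvd_add (hΦdvd u0 i) (hΦdvd u2 i)) ((hΦdvd u1 i).mul_left 2))
      have e : ((Φ u0 : ℤ) - u0 i + ((Φ u2 : ℤ) - u2 i) - 2 * ((Φ u1 : ℤ) - u1 i))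
          = -(u0 i - 2 * u1 i + u2 i) := by
        have : (Φ u0 : ℤ) + Φ u2 = 2 * Φ u1 := by exact_mod_cast he
        linarith
      rw [e] at h
      exact dvd_neg.mp h
    have hlin := fun i => local5_linear (hodd i) (hSmem _ m0.1 i) (hSmem _ m1.1 i) (hSmem _ m2.1 i)
      (hSmem _ m3.1 i) (hSmem _ m4.1 i) (hsecdvd p0.1 p1.1 p2.1 (by omega) i)
      (hsecdvd p1.1 p2.1 p3.1 (by omega) i) (hsecdvd p2.1 p3.1 p4.1 (by omega) i)
    have hsum1 : ∑ i, (p0.1 i % 2 + p4.1 i % 2 - 2 * (p2.1 i % 2)) = 0 := by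
      simp only [Finset.sum_sub_distrib, Finset.sum_add_distrib, ← Finset.mul_sum]
      rw [m0.2.2.1, m2.2.2.1, m4.2.2.1]; ring
    have hz1 := (Finset.sum_eq_zero_iff_of_nonneg (fun i _ => by have := (hlin i).1; omega)).mp hsum1
    have hgen := fun i => (hlin i).2 (by have := hz1 i (Finset.mem_univ i); omega)
    have hb1 : (p0.2 : ℤ) + 3 * p2.2 = 3 * p1.2 + p3.2 := by
      rw [m0.2.2.2, m1.2.2.2, m2.2.2.2, m3.2.2.2]
      have : ∑ i, ((p0.1 i) ^ 2 + 3 * (p2.1 i) ^ 2 - 3 * (p1.1 i) ^ 2 - (p3.1 i) ^ 2) = 0 := by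
        apply Finset.sum_eq_zero
        intro i _
        obtain ⟨g1, g2, -⟩ := hgen i
        have e2 : p2.1 i = 2 * p1.1 i - p0.1 i := by linarith
        have e3 : p3.1 i = 3 * p1.1 i - 2 * p0.1 i := by linarith
        rw [e2, e3]; ring
      simp only [Finset.sum_sub_distrib, Finset.sum_add_distrib, ← Finset.mul_sum] at this
      linarith
    have hb2 : (p1.2 : ℤ) + 3 * p3.2 = 3 * p2.2 + p4.2 := by
      rw [m1.2.2.2, m2.2.2.2, m3.2.2.2, m4.2.2.2]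
      have : ∑ i, ((p1.1 i) ^ 2 + 3 * (p3.1 i) ^ 2 - 3 * (p2.1 i) ^ 2 - (p4.1 i) ^ 2) = 0 := by
        apply Finset.sum_eq_zero
        intro i _
        obtain ⟨-, g2, g3⟩ := hgen i
        have e2 : p3.1 i = 2 * p2.1 i - p1.1 i := by linarith
        have e3 : p4.1 i = 3 * p2.1 i - 2 * p1.1 i := by linarith
        rw [e2, e3]; ring
      simp only [Finset.sum_sub_distrib, Finset.sum_add_distrib, ← Finset.mul_sum] at this
      linarith
    obtain ⟨f1, f2⟩ := hfree _ m0.2.1 _ m1.2.1 _ m2.2.1 _ m3.2.1 _ m4.2.1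
      (by exact_mod_cast hb1) (by exact_mod_cast hb2)
    have f1' : (p0.2 : ℤ) = p1.2 := by exact_mod_cast f1
    have f2' : (p1.2 : ℤ) = p2.2 := by exact_mod_cast f2
    rw [m0.2.2.2, m1.2.2.2] at f1'
    rw [m1.2.2.2, m2.2.2.2] at f2'
    have hsum2 : ∑ i, 2 * (p1.1 i - p0.1 i) ^ 2 = 0 := by
      have : ∀ i, 2 * (p1.1 i - p0.1 i) ^ 2 = (p0.1 i) ^ 2 - 2 * (p1.1 i) ^ 2 + (p2.1 i) ^ 2 := by
        intro i
        have e2 : p2.1 i = 2 * p1.1 i - p0.1 i := by linarith [(hgen i).1]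
        rw [e2]; ring
      simp only [this, Finset.sum_sub_distrib, Finset.sum_add_distrib, ← Finset.mul_sum]
      linarith
    have hz2 := (Finset.sum_eq_zero_iff_of_nonneg (fun i _ => by positivity)).mp hsum2
    have h01 : p0.1 = p1.1 := by
      funext i
      have := hz2 i (Finset.mem_univ i)
      have h2 : (p1.1 i - p0.1 i) ^ 2 = 0 := by linarith
      have := pow_eq_zero_iff (two_ne_zero) |>.mp h2
      linarith
    rw [h01] at e0
    omega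
  · rw [Finset.card_image_of_injOn hinj, ← hcardT]
    calc (∏ i, (W5 (s i)).card) * B.card = (S ×ˢ B).card := by
          rw [Finset.card_product, hS, Fintype.card_piFinset]
      _ ≤ G.card * T.card := hcardS

end Vale.Agent.P057
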