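import Vale.Agent.P057.Construct
import Vale.Agent.P057.Local5
import Vale.Agent.P057.BlockGen

namespace Vale.Agent.P057

open Finset

/-- no nonconstant five-term sequence with vanishing third differences -/
def Free52 (B : Finset ℕ) : Prop :=
  ∀ y0 ∈ B, ∀ y1 ∈ B, ∀ y2 ∈ B, ∀ y3 ∈ B, ∀ y4 ∈ B,
    y0 + 3 * y2 = 3 * y1 + y3 → y1 + 3 * y3 = 3 * y2 + y4 → y0 = y1 ∧ y1 = y2

theorem Free52_shift (A A' : Finset ℕ) (c : ℕ) (hA : Free52 A) (h : ∀ x ∈ A', x + c ∈ A) :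
    Free52 A' := by
  intro y0 h0 y1 h1 y2 h2 y3 h3 y4 h4 e1 e2
  have := hA _ (h y0 h0) _ (h y1 h1) _ (h y2 h2) _ (h y3 h3) _ (h y4 h4) (by omega) (by omega)
  omega

theorem exists_Free52 {ι : Type*} [Fintype ι] [DecidableEq ι] (s : ι → ℕ)
    (hs : ∀ i, s i ≠ 0) (hco : Pairwise (Function.onFun Nat.Coprime s)) :
    ∃ B : Finset ℕ, B ⊆ Finset.Icc 1 (∏ i, s i) ∧ Free52 B ∧
      ∏ i, (W2 (s i)).card ≤ B.card * (∑ i, (s i) ^ 2 + 1) := by
  classical
  choose Φ hΦlt hΦdvd using crt_int s hs hco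
  set S : Finset (ι → ℤ) := Fintype.piFinset (fun i => W2 (s i)) with hS
  have hSmem : ∀ w ∈ S, ∀ i, InW2 (s i) (w i) := fun w hw i =>
    mem_W2.mp (Fintype.mem_piFinset.mp hw i)
  let key : (ι → ℤ) → ℤ := fun w => ∑ i, (w i) ^ 2
  set T : Finset ℤ := Finset.Icc (0 : ℤ) (∑ i, (s i : ℤ) ^ 2) with hT
  have hmaps : ∀ w ∈ S, key w ∈ T := by
    intro w hw
    rw [hT, Finset.mem_Icc]
    exact ⟨Finset.sum_nonneg fun i _ => sq_nonneg _,
      Finset.sum_le_sum fun i _ => W2_sq_le (hSmem w hw i)⟩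
  have hTne : T.Nonempty := by
    refine ⟨0, ?_⟩
    rw [hT, Finset.mem_Icc]
    exact ⟨le_refl _, by positivity⟩
  obtain ⟨y, hyT, hymax⟩ := Finset.exists_max_image T (fun y => (S.filter (fun w => key w = y)).card) hTne
  set F : Finset (ι → ℤ) := S.filter (fun w => key w = y) with hF
  have hcardS : S.card ≤ F.card * T.card :=
    Finset.card_le_mul_card_image_of_maps_to hmaps F.card hymax
  have hcardT : T.card = ∑ i, (s i) ^ 2 + 1 := by
    rw [hT, Int.card_Icc]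
    have : (∑ i, (s i : ℤ) ^ 2) = ((∑ i, (s i) ^ 2 : ℕ) : ℤ) := by push_cast; rfl
    rw [this]
    omega
  have hinj : Set.InjOn (fun w => Φ w + 1) (F : Set (ι → ℤ)) := by
    intro w hw w' hw' h
    have hw1 := hSmem w (Finset.mem_filter.mp hw).1
    have hw2 := hSmem w' (Finset.mem_filter.mp hw').1
    have h' : Φ w = Φ w' := by simpa using h
    funext i
    apply W2_inj (hw1 i) (hw2 i)
    have h1 := hΦdvd w i
    have h2 := hΦdvd w' i
    rw [h'] at h1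
    have := dvd_sub h2 h1
    simpa using this
  refine ⟨F.image (fun w => Φ w + 1), ?_, ?_, ?_⟩
  · intro x hx
    obtain ⟨w, -, rfl⟩ := Finset.mem_image.mp hx
    rw [Finset.mem_Icc]
    have := hΦlt w
    omega
  · intro y0 h0 y1 h1 y2 h2 y3 h3 y4 h4 e1 e2
    obtain ⟨w0, hw0, rfl⟩ := Finset.mem_image.mp h0
    obtain ⟨w1, hw1, rfl⟩ := Finset.mem_image.mp h1
    obtain ⟨w2, hw2, rfl⟩ := Finset.mem_image.mp h2
    obtain ⟨w3, hw3, rfl⟩ := Finset.mem_image.mp h3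
    obtain ⟨w4, hw4, rfl⟩ := Finset.mem_image.mp h4
    have m0 := Finset.mem_filter.mp hw0
    have m1 := Finset.mem_filter.mp hw1
    have m2 := Finset.mem_filter.mp hw2
    have m3 := Finset.mem_filter.mp hw3
    have m4 := Finset.mem_filter.mp hw4
    have hthird : ∀ (u0 u1 u2 u3 : ι → ℤ), u0 ∈ S → u1 ∈ S → u2 ∈ S → u3 ∈ S →
        Φ u0 + 3 * Φ u2 = 3 * Φ u1 + Φ u3 → ∀ i, u0 i - 3 * u1 i + 3 * u2 i - u3 i = 0 := by
      intro u0 u1 u2 u3 hu0 hu1 hu2 hu3 he i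
      apply local2_linear (hSmem u0 hu0 i) (hSmem u1 hu1 i) (hSmem u2 hu2 i) (hSmem u3 hu3 i)
      have h := dvd_sub (dvd_add (hΦdvd u0 i) ((hΦdvd u2 i).mul_left 3))
        (dvd_add ((hΦdvd u1 i).mul_left 3) (hΦdvd u3 i))
      have e : ((Φ u0 : ℤ) - u0 i + 3 * ((Φ u2 : ℤ) - u2 i) - (3 * ((Φ u1 : ℤ) - u1 i) + ((Φ u3 : ℤ) - u3 i)))
          = -(u0 i - 3 * u1 i + 3 * u2 i - u3 i) := by
        have : (Φ u0 : ℤ) + 3 * Φ u2 = 3 * Φ u1 + Φ u3 := by exact_mod_cast he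
        linarith
      rw [e] at h
      exact dvd_neg.mp h
    have t1 := hthird w0 w1 w2 w3 m0.1 m1.1 m2.1 m3.1 (by omega)
    have t2 := hthird w1 w2 w3 w4 m1.1 m2.1 m3.1 m4.1 (by omega)
    have k0 : ∑ i, (w0 i) ^ 2 = y := m0.2
    have k1 : ∑ i, (w1 i) ^ 2 = y := m1.2
    have k2 : ∑ i, (w2 i) ^ 2 = y := m2.2
    have k3 : ∑ i, (w3 i) ^ 2 = y := m3.2
    have k4 : ∑ i, (w4 i) ^ 2 = y := m4.2
    have hsum1 : ∑ i, 6 * (w0 i - 2 * w1 i + w2 i) ^ 2 = 0 := by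
      have : ∀ i, 6 * (w0 i - 2 * w1 i + w2 i) ^ 2 =
          (w0 i) ^ 2 - 4 * (w1 i) ^ 2 + 6 * (w2 i) ^ 2 - 4 * (w3 i) ^ 2 + (w4 i) ^ 2 :=
        fun i => (quartic_id (t1 i) (t2 i)).symm
      simp only [this, Finset.sum_sub_distrib, Finset.sum_add_distrib, ← Finset.mul_sum]
      rw [k0, k1, k2, k3, k4]; ring
    have hz1 := (Finset.sum_eq_zero_iff_of_nonneg (fun i _ => by positivity)).mp hsum1
    have hsec : ∀ i, w0 i - 2 * w1 i + w2 i = 0 := by
      intro i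
      have := hz1 i (Finset.mem_univ i)
      have h2 : (w0 i - 2 * w1 i + w2 i) ^ 2 = 0 := by linarith
      exact pow_eq_zero_iff (two_ne_zero) |>.mp h2
    have hsum2 : ∑ i, 2 * (w1 i - w0 i) ^ 2 = 0 := by
      have : ∀ i, 2 * (w1 i - w0 i) ^ 2 = (w0 i) ^ 2 - 2 * (w1 i) ^ 2 + (w2 i) ^ 2 := by
        intro i
        have e2 : w2 i = 2 * w1 i - w0 i := by linarith [hsec i]
        rw [e2]; ring
      simp only [this, Finset.sum_sub_distrib, Finset.sum_add_distrib, ← Finset.mul_sum]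
      rw [k0, k1, k2]; ring
    have hz2 := (Finset.sum_eq_zero_iff_of_nonneg (fun i _ => by positivity)).mp hsum2
    have h01 : w0 = w1 := by
      funext i
      have := hz2 i (Finset.mem_univ i)
      have h2 : (w1 i - w0 i) ^ 2 = 0 := by linarith
      have := pow_eq_zero_iff (two_ne_zero) |>.mp h2
      linarith
    have h12 : w1 = w2 := by
      funext i
      have := hsec i
      rw [h01] at this
      linarith
    rw [h01, h12]
    exact ⟨rfl, rfl⟩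
  · rw [Finset.card_image_of_injOn hinj, ← hcardT]
    calc ∏ i, (W2 (s i)).card = S.card := by rw [hS, Fintype.card_piFinset]
      _ ≤ F.card * T.card := hcardS

end Vale.Agent.P057
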