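import Vale.Agent.P057.FreeD
import Vale.Agent.P057.Construct

namespace Vale.Agent.P057

open Polynomial Finset

theorem alt_dvd_sub (n : ℕ) (f g : ℕ → ℤ) (j : ℕ) (q : ℤ) (h : ∀ l, q ∣ f l - g l) :
    q ∣ alt n f j - alt n g j := by
  unfold alt
  rw [← Finset.sum_sub_distrib]
  apply Finset.dvd_sum
  intro l _
  rw [← mul_sub]
  exact Dvd.dvd.mul_left (h _) _

/-- the algebraic heart of one Rankin step -/
theorem rankin_core {ι : Type*} [Fintype ι] (k D : ℕ) (hk : 2 * D + 1 ≤ k) (u : ℕ → ι → ℤ)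
    (hzero : ∀ i j, j + D + 1 < k → alt (D + 1) (fun l => u l i) j = 0)
    (B : Finset ℕ) (hfree : FreeD k (2 * D) B) (c : ℤ)
    (hb : ∀ j < k, ∃ b ∈ B, (b : ℤ) = ∑ i, (u j i) ^ 2 + c) :
    ∀ j < k, u j = u 0 := by
  classical
  have hrep := fun i => rep (fun l => u l i) k D (hzero i)
  choose P hPdeg hPval using hrep
  set Q : ℚ[X] := ∑ i, (P i) ^ 2 + C (c : ℚ) with hQ
  have hsumdeg : (∑ i, (P i) ^ 2).natDegree ≤ 2 * D := by
    apply Polynomial.natDegree_sum_le_of_forall_le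
    intro i _
    refine (Polynomial.natDegree_pow_le).trans ?_
    exact Nat.mul_le_mul_left 2 (hPdeg i)
  have hQdeg : Q.natDegree ≤ 2 * D := by
    refine (Polynomial.natDegree_add_le _ _).trans ?_
    simp [hsumdeg]
  have hQval : ∀ j < k, Q.eval (j : ℚ) = ((∑ i, (u j i) ^ 2 + c : ℤ) : ℚ) := by
    intro j hj
    rw [hQ, Polynomial.eval_add, Polynomial.eval_finsetSum]
    push_cast
    simp only [Polynomial.eval_pow, Polynomial.eval_C]
    congr 1
    apply Finset.sum_congr rfl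
    intro i _
    rw [hPval i j hj]
  have hconst := hfree Q hQdeg (by
    intro j hj
    obtain ⟨b, hbB, e⟩ := hb j hj
    refine ⟨b, hbB, ?_⟩
    rw [hQval j hj, ← e]
    simp)
  have hQC : Q = C (Q.eval 0) := many_values Q (2 * D) k hQdeg (by omega) _ hconst
  have hsum : ∑ i, (P i) ^ 2 = C (Q.eval 0 - c) := by
    have : ∑ i, (P i) ^ 2 = Q - C (c : ℚ) := by rw [hQ]; ring
    rw [this, Polynomial.C_sub]
    congr 1
  have hdeg0 := sum_sq_const P _ hsum D hPdeg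
  intro j hj
  funext i
  have h1 := hPval i j hj
  have h2 := hPval i 0 (by omega)
  rw [Polynomial.eq_C_of_natDegree_eq_zero (hdeg0 i)] at h1 h2
  simp only [Polynomial.eval_C] at h1 h2
  have : ((u j i : ℤ) : ℚ) = (u 0 i : ℤ) := by rw [← h1, ← h2]
  exact_mod_cast this

/-- one general level of the construction -/
theorem level_general {ι : Type*} [Fintype ι] [DecidableEq ι] (k D : ℕ) (hk : 2 * D + 1 ≤ k)
    (s : ι → ℕ) (hs : ∀ i, s i ≠ 0) (hco : Pairwise (Function.onFun Nat.Coprime s))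
    (Wd : ι → Finset ℤ) (τ : ℤ → ℤ) (hτ : ∀ w, 0 ≤ τ w ∧ τ w ≤ 1)
    (hinjW : ∀ i, ∀ w ∈ Wd i, ∀ w' ∈ Wd i, (s i : ℤ) ∣ w - w' → w = w')
    (hsq : ∀ i, ∀ w ∈ Wd i, w ^ 2 ≤ (s i : ℤ) ^ 2)
    (hlin : ∀ u : ℕ → ι → ℤ, (∀ j < k, ∀ i, u j i ∈ Wd i) →
      (∀ j < k, ∑ i, τ (u j i) = ∑ i, τ (u 0 i)) →
      (∀ i j, j + D + 1 < k → (s i : ℤ) ∣ alt (D + 1) (fun l => u l i) j) →
      ∀ i j, j + D + 1 < k → alt (D + 1) (fun l => u l i) j = 0)
    (R : ℕ) (B : Finset ℕ) (hB : B ⊆ Finset.Icc 1 R) (hfree : FreeD k (2 * D) B) :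
    ∃ A : Finset ℕ, A ⊆ Finset.Icc 1 (∏ i, s i) ∧ FreeD k D A ∧
      (∏ i, (Wd i).card) * B.card ≤
        A.card * ((Fintype.card ι + 1) * (∑ i, (s i) ^ 2 + R + 1)) := by
  classical
  choose Φ hΦlt hΦdvd using crt_int s hs hco
  set S : Finset (ι → ℤ) := Fintype.piFinset Wd with hS
  have hSmem : ∀ w ∈ S, ∀ i, w i ∈ Wd i := fun w hw i => Fintype.mem_piFinset.mp hw i
  let key : (ι → ℤ) × ℕ → ℤ × ℤ := fun p => (∑ i, τ (p.1 i), ∑ i, (p.1 i) ^ 2 + R - p.2)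
  set T : Finset (ℤ × ℤ) :=
    Finset.Icc (0 : ℤ) (Fintype.card ι) ×ˢ Finset.Icc (0 : ℤ) (∑ i, (s i : ℤ) ^ 2 + R) with hT
  have hmaps : ∀ p ∈ S ×ˢ B, key p ∈ T := by
    intro p hp
    obtain ⟨hw, hb⟩ := Finset.mem_product.mp hp
    have hb' := Finset.mem_Icc.mp (hB hb)
    have hb1 : (1 : ℤ) ≤ p.2 := by exact_mod_cast hb'.1
    have hb2 : (p.2 : ℤ) ≤ R := by exact_mod_cast hb'.2
    have h1 : 0 ≤ ∑ i, (p.1 i) ^ 2 := Finset.sum_nonneg fun i _ => sq_nonneg _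
    have h2 : ∑ i, (p.1 i) ^ 2 ≤ ∑ i, (s i : ℤ) ^ 2 :=
      Finset.sum_le_sum fun i _ => hsq i _ (hSmem p.1 hw i)
    rw [hT, Finset.mem_product, Finset.mem_Icc, Finset.mem_Icc]
    refine ⟨⟨Finset.sum_nonneg fun i _ => (hτ _).1, ?_⟩, ⟨?_, ?_⟩⟩
    · calc ∑ i, τ (p.1 i) ≤ ∑ _i : ι, (1 : ℤ) := Finset.sum_le_sum fun i _ => (hτ _).2
        _ = Fintype.card ι := by simp
    · show 0 ≤ ∑ i, (p.1 i) ^ 2 + R - p.2
      linarith
    · show ∑ i, (p.1 i) ^ 2 + R - p.2 ≤ _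
      linarith
  have hTne : T.Nonempty := by
    refine ⟨(0, 0), ?_⟩
    rw [hT, Finset.mem_product, Finset.mem_Icc, Finset.mem_Icc]
    exact ⟨⟨le_refl _, by positivity⟩, ⟨le_refl _, by positivity⟩⟩
  obtain ⟨y, hyT, hymax⟩ := Finset.exists_max_image T
    (fun y => ((S ×ˢ B).filter (fun p => key p = y)).card) hTne
  set G : Finset ((ι → ℤ) × ℕ) := (S ×ˢ B).filter (fun p => key p = y) with hG
  have hcardS : (S ×ˢ B).card ≤ G.card * T.card :=
    Finset.card_le_mul_card_image_of_maps_to hmaps G.card hymax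
  have hcardT : T.card = (Fintype.card ι + 1) * (∑ i, (s i) ^ 2 + R + 1) := by
    rw [hT, Finset.card_product, Int.card_Icc, Int.card_Icc]
    have e1 : ((Fintype.card ι : ℤ) + 1 - 0).toNat = Fintype.card ι + 1 := by omega
    have e2 : (∑ i, (s i : ℤ) ^ 2 + R + 1 - 0).toNat = ∑ i, (s i) ^ 2 + R + 1 := by
      have : (∑ i, (s i : ℤ) ^ 2) = ((∑ i, (s i) ^ 2 : ℕ) : ℤ) := by push_cast; rfl
      rw [this]
      omega
    rw [e1, e2]
  have hGmem : ∀ p ∈ G, p.1 ∈ S ∧ p.2 ∈ B ∧ ∑ i, τ (p.1 i) = y.1 ∧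
      (p.2 : ℤ) = ∑ i, (p.1 i) ^ 2 + R - y.2 := by
    intro p hp
    obtain ⟨hp1, hp2⟩ := Finset.mem_filter.mp hp
    obtain ⟨hw, hb⟩ := Finset.mem_product.mp hp1
    have e1 := congrArg Prod.fst hp2
    have e2 := congrArg Prod.snd hp2
    simp only [key] at e1 e2
    exact ⟨hw, hb, e1, by linarith⟩
  have hΦinj : ∀ w ∈ S, ∀ w' ∈ S, Φ w = Φ w' → w = w' := by
    intro w hw w' hw' h'
    funext i
    apply hinjW i _ (hSmem w hw i) _ (hSmem w' hw' i)
    have h1 := hΦdvd w i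
    have h2 := hΦdvd w' i
    rw [h'] at h1
    have := dvd_sub h2 h1
    simpa using this
  have hinj : Set.InjOn (fun p : (ι → ℤ) × ℕ => Φ p.1 + 1) (G : Set ((ι → ℤ) × ℕ)) := by
    intro p hp p' hp' h
    have m := hGmem p hp
    have m' := hGmem p' hp'
    have h' : Φ p.1 = Φ p'.1 := by simpa using h
    have hw := hΦinj _ m.1 _ m'.1 h'
    have hb : (p.2 : ℤ) = p'.2 := by rw [m.2.2.2, m'.2.2.2, hw]
    exact Prod.ext hw (by exact_mod_cast hb)
  refine ⟨G.image (fun p => Φ p.1 + 1), ?_, ?_, ?_⟩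
  · intro x hx
    obtain ⟨p, -, rfl⟩ := Finset.mem_image.mp hx
    rw [Finset.mem_Icc]
    have := hΦlt p.1
    omega
  · intro P hPdeg hval
    have hex : ∀ j, j < k → ∃ p : (ι → ℤ) × ℕ, p ∈ G ∧ P.eval (j : ℚ) = ((Φ p.1 + 1 : ℕ) : ℚ) := by
      intro j hj
      obtain ⟨b, hb, e⟩ := hval j hj
      obtain ⟨p, hp, rfl⟩ := Finset.mem_image.mp hb
      exact ⟨p, hp, e⟩
    choose! p hpG hpval using hex
    have hm := fun j hj => hGmem (p j) (hpG j hj)
    have hdvd : ∀ i j, j + D + 1 < k → (s i : ℤ) ∣ alt (D + 1) (fun l => (p l).1 i) j := by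
      intro i j hj
      have h0 : alt (D + 1) (fun l => (Φ (p l).1 : ℤ)) j = 0 := by
        apply alt_eq_zero_of_poly (P - C 1) (n := D + 1)
        · have : (P - C 1).natDegree ≤ D := by
            refine (Polynomial.natDegree_sub_le _ _).trans ?_
            simp [hPdeg]
          omega
        · intro l hl
          rw [Polynomial.eval_sub, hpval (j + l) (by omega)]
          simp
      have h1 := alt_dvd_sub (D + 1) (fun l => (Φ (p l).1 : ℤ)) (fun l => (p l).1 i) j (s i)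
        (fun l => hΦdvd _ i)
      rw [h0, zero_sub] at h1
      exact dvd_neg.mp h1
    have hzero := hlin (fun l => (p l).1) (fun j hj i => hSmem _ (hm j hj).1 i)
      (fun j hj => by rw [(hm j hj).2.2.1, (hm 0 (by omega)).2.2.1]) hdvd
    have hconst := rankin_core k D hk (fun l => (p l).1) hzero B hfree ((R : ℤ) - y.2)
      (fun j hj => ⟨(p j).2, (hm j hj).2.1, by rw [(hm j hj).2.2.2]; ring⟩)
    intro j hj
    have h0 := hpval 0 (by omega)
    rw [hpval j hj, hconst j hj]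
    simpa using h0.symm
  · rw [Finset.card_image_of_injOn hinj, ← hcardT]
    calc (∏ i, (Wd i).card) * B.card = (S ×ˢ B).card := by
          rw [Finset.card_product, hS, Fintype.card_piFinset]
      _ ≤ G.card * T.card := hcardS

end Vale.Agent.P057
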