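import Vale.Agent.P057.Asymp

namespace Vale.Agent.P057

open Real Filter

theorem ev_E2 (a : ℝ) (ha : 0 < a) : ∀ᶠ x : ℝ in atTop, 8 * (a * x) ≤ Real.exp (x / a) := by
  filter_upwards [eventually_ge_atTop (16 * a ^ 3), eventually_ge_atTop 0] with x hx hx0
  have h1 := Real.quadratic_le_exp_of_nonneg (x := x / a) (by positivity)
  have h2 : 8 * (a * x) ≤ (x / a) ^ 2 / 2 := by
    rw [div_pow, le_div_iff₀ (by norm_num), le_div_iff₀ (by positivity)]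
    nlinarith [mul_nonneg hx0 (sub_nonneg.mpr hx)]
  have h3 : 0 ≤ x / a := by positivity
  linarith

theorem ev_E3 (c a ε : ℝ) (ha : 0 < a) (hε : 0 < ε) :
    ∀ᶠ x : ℝ in atTop, c + 8 * Real.log (a * x) ≤ ε * x := by
  have hlo := Real.isLittleO_log_id_atTop.def (show (0 : ℝ) < ε / 16 by positivity)
  filter_upwards [hlo, eventually_ge_atTop (2 * (c + 8 * Real.log a) / ε), eventually_gt_atTop 0]
    with x h1 h2 h3
  rw [Real.log_mul ha.ne' h3.ne']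
  simp only [id, Real.norm_eq_abs] at h1
  rw [abs_of_pos h3] at h1
  have h4 : Real.log x ≤ ε / 16 * x := (le_abs_self _).trans h1
  rw [div_le_iff₀ hε] at h2
  nlinarith

theorem main_bound (ε : ℝ) (hε : 0 < ε) : ∃ N₀ : ℕ, ∀ N ≥ N₀,
    (N : ℝ) * Real.exp (-(2 * Real.sqrt (2 * Real.log (9 / 5)) + ε) * Real.sqrt (Real.log N))
      ≤ rk 4 N := by
  obtain ⟨lam, hlam⟩ : ∃ lam : ℝ, lam = Real.log (9 / 5) := ⟨_, rfl⟩
  have hlampos : 0 < lam := by rw [hlam]; exact Real.log_pos (by norm_num)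
  obtain ⟨c0, hc0def⟩ : ∃ c0 : ℝ, c0 = Real.sqrt (2 * lam) := ⟨_, rfl⟩
  have hc0pos : 0 < c0 := by rw [hc0def]; exact Real.sqrt_pos.mpr (by positivity)
  have hc0 : c0 ^ 2 = 2 * lam := by rw [hc0def]; exact Real.sq_sqrt (by positivity)
  obtain ⟨κ, hκ⟩ : ∃ κ : ℝ, κ = c0 / lam := ⟨_, rfl⟩
  have hκpos : 0 < κ := by rw [hκ]; positivity
  have hev : ∀ᶠ x : ℝ in atTop, 1 ≤ x ∧ 6 ≤ κ * x ∧ 8 * ((κ + 1) * x) ≤ Real.exp (x / (κ + 1)) ∧
      lam + Real.log 64 + 8 * Real.log ((κ + 1) * x) ≤ ε * x := by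
    filter_upwards [eventually_ge_atTop 1, eventually_ge_atTop (6 / κ), ev_E2 (κ + 1) (by positivity),
      ev_E3 (lam + Real.log 64) (κ + 1) ε (by positivity) hε] with x h0 h1 h2 h3
    refine ⟨h0, ?_, h2, h3⟩
    rw [div_le_iff₀ hκpos] at h1
    linarith
  have htend : Tendsto (fun N : ℕ => Real.sqrt (Real.log N)) atTop atTop :=
    Real.tendsto_sqrt_atTop.comp (Real.tendsto_log_atTop.comp tendsto_natCast_atTop_atTop)
  obtain ⟨N₀, hN₀⟩ := Filter.eventually_atTop.mp (htend.eventually hev)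
  refine ⟨max N₀ 1, fun N hN => ?_⟩
  obtain ⟨h0, h1, h2, h3⟩ := hN₀ N (le_trans (le_max_left _ _) hN)
  have hN1 : 1 ≤ N := le_trans (le_max_right _ _) hN
  have hlogN : 0 ≤ Real.log N := Real.log_nonneg (by exact_mod_cast hN1)
  rw [← hlam, ← hc0def]
  exact core_bound N ε lam c0 κ _ hlam hlampos hc0 hc0pos hκ (Real.sq_sqrt hlogN) h0 h1 h2 h3

end Vale.Agent.P057
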