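import Vale.Agent.P057.Chain

namespace Vale.Agent.P057

open Real Finset

theorem two_Pprod (m : ℕ) :
    2 * Pprod 2 m = (2 : ℝ) ^ ((m + 2) * (m + 1) / 2) * (Real.log 2) ^ m := by
  induction m with
  | zero => simp [Pprod]
  | succ m ih =>
    have e1 : Pprod 2 (m + 1) = Pprod 2 m * (2 * ((2 ^ m * 2 : ℕ) : ℝ) * Real.log 2) := by
      unfold Pprod
      rw [Finset.prod_range_succ]
    have e2 : (m + 1 + 2) * (m + 1 + 1) / 2 = (m + 2) * (m + 1) / 2 + (m + 2) := by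
      have : (m + 1 + 2) * (m + 1 + 1) = (m + 2) * (m + 1) + 2 * (m + 2) := by ring
      rw [this, Nat.add_mul_div_left _ _ (by norm_num)]
    rw [e1, e2, pow_add, pow_succ (Real.log 2) m]
    have e3 : (2 * ((2 ^ m * 2 : ℕ) : ℝ)) = (2 : ℝ) ^ (m + 2) := by
      push_cast
      ring
    calc 2 * (Pprod 2 m * (2 * ((2 ^ m * 2 : ℕ) : ℝ) * Real.log 2))
        = (2 * Pprod 2 m) * ((2 * ((2 ^ m * 2 : ℕ) : ℝ)) * Real.log 2) := by ring
      _ = _ := by rw [ih, e3]; ring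

/-- the constant of the general lower bound -/
noncomputable def Cn (n : ℕ) : ℝ :=
  (n : ℝ) * ((2 : ℝ) ^ (n * (n - 1) / 2) * (Real.log 2) ^ (n - 2) * Real.log (12 / 7)) ^ ((1 : ℝ) / n)

theorem big_general (n k : ℕ) (hn : 3 ≤ n) (hk : 2 ^ (n - 1) < k) :
    Big (fun A => ¬ HasAP k A) (Cn n) n := by
  obtain ⟨m, rfl⟩ : ∃ m, n = m + 3 := ⟨n - 3, by omega⟩
  have hk' : 2 ^ (m + 1) * 2 + 1 ≤ k := by
    have : 2 ^ (m + 3 - 1) = 2 ^ (m + 1) * 2 := by
      rw [show m + 3 - 1 = m + 1 + 1 by omega, pow_succ]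
    omega
  have hk5 : 5 ≤ k := by
    have h1 : 1 ≤ 2 ^ m := Nat.one_le_two_pow
    have : 2 ^ (m + 1) = 2 ^ m * 2 := pow_succ _ _
    omega
  have hchain := chain k (m + 1) 2 (by norm_num) hk'
  have hstep := big_step_opt (FreeD k 2) (fun A => ¬ HasAP k A) (7 / 12) 2 4 (by norm_num)
    (by norm_num) (by norm_num) (stepH_one k hk5) (m + 1 + 1) (by omega) (Pprod 2 (m + 1))
    (Pprod_pos _ _ (by norm_num)) hchain
  have e1 : Real.log (1 / (7 / 12 : ℝ)) = Real.log (12 / 7) := by norm_num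
  have e2 : 2 * Real.log (12 / 7) * Pprod 2 (m + 1) =
      (2 : ℝ) ^ ((m + 3) * (m + 3 - 1) / 2) * (Real.log 2) ^ (m + 3 - 2) * Real.log (12 / 7) := by
    have := two_Pprod (m + 1)
    have e3 : (m + 3) * (m + 3 - 1) / 2 = (m + 1 + 2) * (m + 1 + 1) / 2 := by
      congr 1
    rw [e3, show m + 3 - 2 = m + 1 by omega, ← this]
    ring
  rw [e1, e2] at hstep
  exact hstep

theorem main_general (n k : ℕ) (hn : 3 ≤ n) (hk : 2 ^ (n - 1) < k) (ε : ℝ) (hε : 0 < ε) :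
    ∃ N₀ : ℕ, ∀ N ≥ N₀,
      (N : ℝ) * Real.exp (-(Cn n + ε) * (Real.log N) ^ ((1 : ℝ) / n)) ≤ rk k N := by
  obtain ⟨N₀, hN₀⟩ := big_general n k hn hk ε hε
  refine ⟨N₀, fun N hN => ?_⟩
  obtain ⟨A, hA, hAP, hcard⟩ := hN₀ N hN
  refine hcard.trans ?_
  exact_mod_cast card_le_rk hA hAP

/-- comparison with the constant `n 2^((n-1)/2) (log 2)^((n-1)/n)` -/
theorem Cn_lt (n : ℕ) (hn : 3 ≤ n) :
    Cn n < (n : ℝ) * (2 : ℝ) ^ (((n : ℝ) - 1) / 2) * (Real.log 2) ^ (((n : ℝ) - 1) / n) := by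
  have hnpos : (0 : ℝ) < n := by
    have : 0 < n := by omega
    exact_mod_cast this
  have hl2 : 0 < Real.log 2 := Real.log_pos (by norm_num)
  have hl : 0 < Real.log (12 / 7) := Real.log_pos (by norm_num)
  have hlt : Real.log (12 / 7) < Real.log 2 := Real.log_lt_log (by norm_num) (by norm_num)
  have h1 : ((2 : ℝ) ^ (n * (n - 1) / 2) * (Real.log 2) ^ (n - 2) * Real.log (12 / 7)) ^ ((1 : ℝ) / n) <
      ((2 : ℝ) ^ (n * (n - 1) / 2) * (Real.log 2) ^ (n - 2) * Real.log 2) ^ ((1 : ℝ) / n) := by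
    apply Real.rpow_lt_rpow (by positivity) _ (by positivity)
    apply mul_lt_mul_of_pos_left hlt (by positivity)
  have h2 : ((2 : ℝ) ^ (n * (n - 1) / 2) * (Real.log 2) ^ (n - 2) * Real.log 2) ^ ((1 : ℝ) / n) =
      (2 : ℝ) ^ (((n : ℝ) - 1) / 2) * (Real.log 2) ^ (((n : ℝ) - 1) / n) := by
    have e1 : (Real.log 2) ^ (n - 2) * Real.log 2 = (Real.log 2) ^ (n - 1) := by
      rw [← pow_succ]
      congr 1
      omega
    rw [mul_assoc, e1, Real.mul_rpow (by positivity) (by positivity)]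
    congr 1
    · rw [← Real.rpow_natCast, ← Real.rpow_mul (by norm_num)]
      congr 1
      have hdiv : 2 ∣ n * (n - 1) := (Nat.even_mul_pred_self n).two_dvd
      rw [Nat.cast_div hdiv (by norm_num)]
      push_cast [Nat.cast_sub (show 1 ≤ n by omega)]
      field_simp
    · rw [← Real.rpow_natCast, ← Real.rpow_mul hl2.le]
      congr 1
      push_cast [Nat.cast_sub (show 1 ≤ n by omega)]
      ring
  unfold Cn
  rw [mul_assoc (n : ℝ) ((2 : ℝ) ^ (((n : ℝ) - 1) / 2)), ← h2]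
  exact mul_lt_mul_of_pos_left h1 hnpos

end Vale.Agent.P057
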