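import Vale.Agent.P057.Defs

namespace Vale.Agent.P057

theorem rk_mono_k {k k' : ℕ} (hk : 0 < k) (h : k ≤ k') (N : ℕ) : rk k N ≤ rk k' N := by
  apply csSup_le
  · exact ⟨0, ∅, by simp, by
      rintro ⟨a, d, _, hap⟩
      simpa using hap 0 hk, by simp⟩
  · rintro m ⟨A, hA, hAP, rfl⟩
    apply card_le_rk hA
    rintro ⟨a, d, hd, hap⟩
    exact hAP ⟨a, d, hd, fun i hi => hap i (lt_of_lt_of_le hi h)⟩

end Vale.Agent.P057
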