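import Mathlib

namespace Vale.Agent.P057

open Polynomial Finset

/-- the `n`-th forward difference of `f` at `j`, written as an alternating sum -/
def alt (n : ℕ) (f : ℕ → ℤ) (j : ℕ) : ℤ :=
  ∑ l ∈ range (n + 1), ((-1 : ℤ) ^ (n - l) * (n.choose l : ℤ)) * f (j + l)

theorem poly_alt (P : ℚ[X]) {n : ℕ} (hP : P.natDegree < n) (j : ℕ) :
    ∑ l ∈ range (n + 1), (((-1 : ℤ) ^ (n - l) * (n.choose l : ℤ) : ℤ) : ℚ) * P.eval ((j + l : ℕ) : ℚ)
      = 0 := by
  have h := congrFun (Polynomial.fwdDiff_iter_eq_zero_of_degree_lt hP) (j : ℚ)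
  rw [fwdDiff_iter_eq_sum_shift] at h
  simp only [zsmul_eq_mul, nsmul_eq_mul, mul_one, Pi.zero_apply] at h
  rw [← h]
  apply Finset.sum_congr rfl
  intro l _
  push_cast
  ring

/-- if an integer sequence agrees with a polynomial of degree `< n`, its `n`-th differences vanish -/
theorem alt_eq_zero_of_poly (P : ℚ[X]) {n : ℕ} (hP : P.natDegree < n) (f : ℕ → ℤ) (j : ℕ)
    (h : ∀ l ≤ n, P.eval ((j + l : ℕ) : ℚ) = f (j + l)) : alt n f j = 0 := by
  have h1 := poly_alt P hP j
  have h2 : ((alt n f j : ℤ) : ℚ) = 0 := by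
    rw [← h1]
    unfold alt
    rw [Int.cast_sum]
    apply Finset.sum_congr rfl
    intro l hl
    rw [h l (by have := Finset.mem_range.mp hl; omega), Int.cast_mul]
  exact_mod_cast h2

theorem alt_top (n : ℕ) (f : ℕ → ℤ) (j : ℕ) :
    alt n f j = ∑ l ∈ range n, ((-1 : ℤ) ^ (n - l) * (n.choose l : ℤ)) * f (j + l) + f (j + n) := by
  unfold alt
  rw [Finset.sum_range_succ]
  simp

/-- a windowed sequence with vanishing `(D+1)`-th differences is given by a polynomial -/
theorem rep (w : ℕ → ℤ) (k D : ℕ) (h : ∀ j, j + D + 1 < k → alt (D + 1) w j = 0) :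
    ∃ P : ℚ[X], P.natDegree ≤ D ∧ ∀ j < k, P.eval (j : ℚ) = w j := by
  classical
  have hinj : Set.InjOn (fun i : ℕ => (i : ℚ)) (range (D + 1) : Set ℕ) := by
    intro a _ b _ hab
    simpa using hab
  set P : ℚ[X] := Lagrange.interpolate (range (D + 1)) (fun i : ℕ => (i : ℚ)) (fun i => (w i : ℚ))
    with hPdef
  have hdeg : P.natDegree ≤ D := by
    have h1 : P.degree < (range (D + 1)).card := Lagrange.degree_interpolate_lt _ hinj
    rw [Finset.card_range] at h1
    by_cases hP0 : P = 0
    · rw [hP0]; simp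
    · have h2 := (Polynomial.natDegree_lt_iff_degree_lt hP0).mpr h1
      omega
  refine ⟨P, hdeg, ?_⟩
  intro j
  induction j using Nat.strong_induction_on with
  | _ j ih =>
    intro hj
    by_cases hjD : j < D + 1
    · exact Lagrange.eval_interpolate_at_node _ hinj (Finset.mem_range.mpr hjD)
    · obtain ⟨j', rfl⟩ : ∃ j', j = j' + (D + 1) := ⟨j - (D + 1), by omega⟩
      have h1 := h j' (by omega)
      rw [alt_top] at h1
      have h2 := poly_alt P (n := D + 1) (by omega) j'
      rw [Finset.sum_range_succ] at h2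
      have h3 : ∑ l ∈ range (D + 1), (((-1 : ℤ) ^ (D + 1 - l) * ((D + 1).choose l : ℤ) : ℤ) : ℚ) *
          P.eval ((j' + l : ℕ) : ℚ) =
          ((∑ l ∈ range (D + 1), ((-1 : ℤ) ^ (D + 1 - l) * ((D + 1).choose l : ℤ)) * w (j' + l) : ℤ) : ℚ) := by
        rw [Int.cast_sum]
        apply Finset.sum_congr rfl
        intro l hl
        have hl' := Finset.mem_range.mp hl
        rw [ih (j' + l) (by omega) (by omega)]
        push_cast
        ring
      rw [h3] at h2
      have h4 : ((w (j' + (D + 1)) : ℤ) : ℚ) =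
          -((∑ l ∈ range (D + 1), ((-1 : ℤ) ^ (D + 1 - l) * ((D + 1).choose l : ℤ)) * w (j' + l) : ℤ) : ℚ) := by
        have : w (j' + (D + 1)) =
            -(∑ l ∈ range (D + 1), ((-1 : ℤ) ^ (D + 1 - l) * ((D + 1).choose l : ℤ)) * w (j' + l)) := by
          linarith
        rw [this]
        push_cast
        ring
      rw [h4]
      simp only [Nat.sub_self, pow_zero, Nat.choose_self, Nat.cast_one, mul_one, Int.cast_one,
        one_mul] at h2
      linarith

/-- a polynomial of degree `≤ m` constant on more than `m` integer points is constant -/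
theorem many_values (Q : ℚ[X]) (m k : ℕ) (hQ : Q.natDegree ≤ m) (hk : m < k) (c : ℚ)
    (h : ∀ j < k, Q.eval (j : ℚ) = c) : Q = C c := by
  have hinj : Set.InjOn (fun i : ℕ => (i : ℚ)) (range k : Set ℕ) := by
    intro a _ b _ hab
    simpa using hab
  apply Polynomial.eq_of_degree_sub_lt_of_eval_index_eq (range k) hinj
  · rw [Finset.card_range]
    have h1 : (Q - C c).natDegree ≤ m := by
      refine (Polynomial.natDegree_sub_le _ _).trans ?_
      simp [hQ]
    calc (Q - C c).degree ≤ ((Q - C c).natDegree : WithBot ℕ) := Polynomial.degree_le_natDegree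
      _ ≤ (m : WithBot ℕ) := by exact_mod_cast h1
      _ < (k : WithBot ℕ) := by exact_mod_cast hk
  · intro i hi
    rw [h i (Finset.mem_range.mp hi)]
    simp

/-- a constant sum of squares of rational polynomials consists of constants -/
theorem sum_sq_const {ι : Type*} [Fintype ι] (P : ι → ℚ[X]) (c : ℚ) (h : ∑ i, (P i) ^ 2 = C c)
    (D : ℕ) (hdeg : ∀ i, (P i).natDegree ≤ D) : ∀ i, (P i).natDegree = 0 := by
  induction D with
  | zero => intro i; exact Nat.le_zero.mp (hdeg i)
  | succ D ih =>
    apply ih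
    have hcoef : ∑ i, ((P i).coeff (D + 1)) ^ 2 = 0 := by
      have h1 := congrArg (fun Q : ℚ[X] => Q.coeff ((D + 1) + (D + 1))) h
      simp only [Polynomial.finsetSum_coeff] at h1
      rw [Polynomial.coeff_C_of_ne_zero (by omega)] at h1
      rw [← h1]
      apply Finset.sum_congr rfl
      intro i _
      rw [sq, sq, Polynomial.coeff_mul_add_eq_of_natDegree_le (hdeg i) (hdeg i)]
    have hz := (Finset.sum_eq_zero_iff_of_nonneg (fun i _ => sq_nonneg _)).mp hcoef
    intro i
    have h2 : (P i).coeff (D + 1) = 0 := by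
      have := hz i (Finset.mem_univ i)
      exact pow_eq_zero_iff (two_ne_zero) |>.mp this
    have := Polynomial.natDegree_le_pred (hdeg i) h2
    simpa using this

end Vale.Agent.P057
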